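import Mathlib

/-!
Basic definitions for Fourier analysis of Boolean functions on the cube `{-1,1}^n`,
modelled as `Fin n → ℤˣ` (vectors whose entries are the units `1`, `-1` of `ℤ`).
-/

namespace Vale.Agent.Lib.P047

/-- The Fourier coefficient `E[f(x) * prod_{i in S} x_i]` of `f : {-1,1}^n → {-1,1}`,
with `x` uniform on `{-1,1}^n`. -/
def fourierCoeff {n : ℕ} (f : (Fin n → ℤˣ) → ℤˣ) (S : Finset (Fin n)) : ℚ :=
  (∑ x : Fin n → ℤˣ, ((f x : ℤ) : ℚ) * ∏ i ∈ S, ((x i : ℤ) : ℚ)) / 2 ^ n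

/-- The degree of `f`: the largest size of a set `S` with nonzero Fourier coefficient
(and `0` if there is none). -/
def degree {n : ℕ} (f : (Fin n → ℤˣ) → ℤˣ) : ℕ :=
  (Finset.univ.filter (fun S : Finset (Fin n) => fourierCoeff f S ≠ 0)).sup Finset.card

/-- The sum of the level-one Fourier coefficients `sum_i fhat({i})`. -/
def levelOneSum {n : ℕ} (f : (Fin n → ℤˣ) → ℤˣ) : ℚ :=
  ∑ i : Fin n, fourierCoeff f {i}

/-- `B_d = E|X_1 + ... + X_d|` for `X` uniform on `{-1,1}^d`: the level-one sum of the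
majority function on `d` bits. -/
def bMaj (d : ℕ) : ℚ :=
  (∑ x : Fin d → ℤˣ, |∑ i : Fin d, ((x i : ℤ) : ℚ)|) / 2 ^ d

end Vale.Agent.Lib.P047
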