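import Mathlib
import Vale.Agent.Lib.P047.Defs

/-!
The square-root bound for the level-one Fourier weight of a Boolean function that is
constant on the pieces of a (fractional) partition of the cube into subcubes.
-/

namespace Vale.Agent.Lib.P047

open Finset

variable {n : ℕ}

/-- Flip coordinate `i` of a sign vector. -/
def flip (i : Fin n) (x : Fin n → ℤˣ) : Fin n → ℤˣ := Function.update x i (-(x i))

theorem flip_same (i : Fin n) (x : Fin n → ℤˣ) : flip i x i = -(x i) := by
  simp [flip]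

theorem flip_ne (i j : Fin n) (x : Fin n → ℤˣ) (h : j ≠ i) : flip i x j = x j := by
  simp [flip, Function.update_of_ne h]

theorem flip_flip (i : Fin n) (x : Fin n → ℤˣ) : flip i (flip i x) = x := by
  funext j
  by_cases h : j = i
  · subst h
    simp [flip_same]
  · simp [flip_ne _ _ _ h]

/-- Coordinate `i` of `x` as a rational number. -/
def xi (x : Fin n → ℤˣ) (i : Fin n) : ℚ := ((x i : ℤ) : ℚ)

theorem xi_sq (x : Fin n → ℤˣ) (i : Fin n) : xi x i * xi x i = 1 := by
  unfold xi
  rcases Int.units_eq_one_or (x i) with h | h <;> simp [h]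

theorem xi_flip_same (i : Fin n) (x : Fin n → ℤˣ) : xi (flip i x) i = - xi x i := by
  unfold xi
  rw [flip_same]
  simp

theorem xi_flip_ne (i j : Fin n) (x : Fin n → ℤˣ) (h : j ≠ i) : xi (flip i x) j = xi x j := by
  unfold xi
  rw [flip_ne _ _ _ h]

/-- A sum over the cube of a function that changes sign under flipping coordinate `i` vanishes. -/
theorem sum_eq_zero_of_flip (i : Fin n) (g : (Fin n → ℤˣ) → ℚ)
    (h : ∀ x, g (flip i x) = - g x) : ∑ x, g x = 0 := by
  have e : ∑ x, g ((Function.Involutive.toPerm (flip i) (flip_flip i)) x) = ∑ x, g x :=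
    Equiv.sum_comp _ g
  have e2 : ∑ x, g ((Function.Involutive.toPerm (flip i) (flip_flip i)) x) = - ∑ x, g x := by
    rw [← Finset.sum_neg_distrib]
    apply Finset.sum_congr rfl
    intro x _
    exact h x
  linarith

/-- If `ψ` does not depend on coordinate `i`, then `sum_x ψ x * x_i = 0`. -/
theorem sum_mul_xi_eq_zero (i : Fin n) (ψ : (Fin n → ℤˣ) → ℚ)
    (hψ : ∀ x, ψ (flip i x) = ψ x) : ∑ x, ψ x * xi x i = 0 := by
  apply sum_eq_zero_of_flip i
  intro x
  rw [hψ, xi_flip_same]
  ring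

theorem card_cube : (Fintype.card (Fin n → ℤˣ) : ℚ) = 2 ^ n := by
  rw [Fintype.card_fun, Fintype.card_units_int, Fintype.card_fin]
  push_cast
  rfl

/-- `levelOneSum f = E[f(x) * (x_1 + ... + x_n)]`. -/
theorem levelOneSum_eq (f : (Fin n → ℤˣ) → ℤˣ) :
    levelOneSum f = (∑ x : Fin n → ℤˣ, ((f x : ℤ) : ℚ) * ∑ i, xi x i) / 2 ^ n := by
  unfold levelOneSum fourierCoeff
  rw [← Finset.sum_div]
  congr 1
  rw [Finset.sum_comm]
  apply Finset.sum_congr rfl
  intro x _
  rw [Finset.mul_sum]
  apply Finset.sum_congr rfl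
  intro i _
  simp [xi]

section main

variable {ι : Type*} (f : (Fin n → ℤˣ) → ℤˣ)
  (J : ι → Finset (Fin n)) (v : ι → Fin n → ℤˣ) (w : ι → ℚ)

/-- The weight of the subcube `k` at the point `x`: `w k` if `x` lies in the subcube, else `0`. -/
def wt (x : Fin n → ℤˣ) (k : ι) : ℚ := if ∀ i ∈ J k, x i = v k i then w k else 0

theorem wt_flip (k : ι) (i : Fin n) (hi : i ∉ J k) (x : Fin n → ℤˣ) :
    wt J v w (flip i x) k = wt J v w x k := by
  unfold wt
  have : (∀ j ∈ J k, flip i x j = v k j) ↔ (∀ j ∈ J k, x j = v k j) := by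
    constructor
    · intro h j hj
      have hne : j ≠ i := fun e => hi (e ▸ hj)
      rw [← flip_ne i j x hne]
      exact h j hj
    · intro h j hj
      have hne : j ≠ i := fun e => hi (e ▸ hj)
      rw [flip_ne i j x hne]
      exact h j hj
  simp only [this]

theorem wt_nonneg (hw : ∀ k, 0 ≤ w k) (x : Fin n → ℤˣ) (k : ι) : 0 ≤ wt J v w x k := by
  unfold wt
  split
  · exact hw k
  · exact le_refl 0

theorem wt_mul_f_flip (hw : ∀ k, 0 ≤ w k)
    (hconst : ∀ k, 0 < w k → ∀ x y : Fin n → ℤˣ,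
      (∀ i ∈ J k, x i = v k i) → (∀ i ∈ J k, y i = v k i) → f x = f y)
    (k : ι) (i : Fin n) (hi : i ∉ J k) (x : Fin n → ℤˣ) :
    wt J v w (flip i x) k * ((f (flip i x) : ℤ) : ℚ) = wt J v w x k * ((f x : ℤ) : ℚ) := by
  rw [wt_flip J v w k i hi x]
  unfold wt
  by_cases hx : ∀ j ∈ J k, x j = v k j
  · rw [if_pos hx]
    rcases (hw k).lt_or_eq with hpos | h0
    · have hfx : ∀ j ∈ J k, flip i x j = v k j := by
        intro j hj
        have hne : j ≠ i := fun e => hi (e ▸ hj)
        rw [flip_ne i j x hne]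
        exact hx j hj
      rw [hconst k hpos (flip i x) x hfx hx]
    · rw [← h0]
      simp
  · rw [if_neg hx]
    simp

/-- The indicator of `i ∈ J k` as a rational number. -/
def bb (k : ι) (i : Fin n) : ℚ := if i ∈ J k then 1 else 0

theorem bb_mul_self (k : ι) (i : Fin n) : bb J k i * bb J k i = bb J k i := by
  unfold bb
  split <;> simp

theorem sum_bb (k : ι) : ∑ i, bb J k i = ((J k).card : ℚ) := by
  unfold bb
  rw [Finset.sum_boole]
  congr 2
  ext i
  simp

/-- Step 2: on each piece the full linear form can be replaced by the sum over the fixed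
coordinates. -/
theorem piece_linear [Fintype ι] (hw : ∀ k, 0 ≤ w k)
    (hconst : ∀ k, 0 < w k → ∀ x y : Fin n → ℤˣ,
      (∀ i ∈ J k, x i = v k i) → (∀ i ∈ J k, y i = v k i) → f x = f y) (k : ι) :
    ∑ x, wt J v w x k * ((f x : ℤ) : ℚ) * ∑ i, xi x i
      = ∑ x, wt J v w x k * ((f x : ℤ) : ℚ) * ∑ i, bb J k i * xi x i := by
  simp only [Finset.mul_sum]
  rw [Finset.sum_comm]
  conv_rhs => rw [Finset.sum_comm]
  apply Finset.sum_congr rfl
  intro i _
  by_cases hi : i ∈ J k
  · simp [bb, hi]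
  · have h0 := sum_mul_xi_eq_zero i (fun x => wt J v w x k * ((f x : ℤ) : ℚ))
      (wt_mul_f_flip f J v w hw hconst k i hi)
    rw [h0]
    simp [bb, hi]

/-- Cross terms: for `i ≠ j` the pieces that fix both `i` and `j` contribute zero in total. -/
theorem cross_zero [Fintype ι] (hcover : ∀ x : Fin n → ℤˣ, ∑ k, wt J v w x k = 1) (i j : Fin n) (hij : j ≠ i) :
    ∑ k, bb J k i * bb J k j * ∑ x, wt J v w x k * (xi x i * xi x j) = 0 := by
  have h1 : ∀ k, bb J k i * bb J k j * ∑ x, wt J v w x k * (xi x i * xi x j)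
      = ∑ x, wt J v w x k * (xi x i * xi x j) := by
    intro k
    by_cases hi : i ∈ J k
    · by_cases hj : j ∈ J k
      · simp [bb, hi, hj]
      · have h0 := sum_mul_xi_eq_zero j (fun x => wt J v w x k * xi x i) (by
          intro x
          rw [wt_flip J v w k j hj x, xi_flip_ne j i x (Ne.symm hij)])
        have h0' : ∑ x, wt J v w x k * (xi x i * xi x j) = 0 := by
          rw [← h0]
          apply Finset.sum_congr rfl
          intro x _
          ring
        rw [h0']
        simp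
    · have h0 := sum_mul_xi_eq_zero i (fun x => wt J v w x k * xi x j) (by
        intro x
        rw [wt_flip J v w k i hi x, xi_flip_ne i j x hij])
      have h0' : ∑ x, wt J v w x k * (xi x i * xi x j) = 0 := by
        rw [← h0]
        apply Finset.sum_congr rfl
        intro x _
        ring
      rw [h0']
      simp
  rw [Finset.sum_congr rfl (fun k _ => h1 k), Finset.sum_comm]
  have h2 : ∀ x : Fin n → ℤˣ, ∑ k, wt J v w x k * (xi x i * xi x j) = xi x j * xi x i := by
    intro x
    rw [← Finset.sum_mul, hcover x]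
    ring
  rw [Finset.sum_congr rfl (fun x _ => h2 x)]
  exact sum_mul_xi_eq_zero i (fun x => xi x j) (fun x => xi_flip_ne i j x hij)

/-- Step 4: the second moment equals the total weighted codimension. -/
theorem second_moment [Fintype ι] (hcover : ∀ x : Fin n → ℤˣ, ∑ k, wt J v w x k = 1) :
    ∑ k, ∑ x, wt J v w x k * ((∑ i, bb J k i * xi x i) * (∑ j, bb J k j * xi x j))
      = ∑ k, ∑ x, wt J v w x k * ((J k).card : ℚ) := by
  have expand : ∀ (k : ι) (x : Fin n → ℤˣ),
      wt J v w x k * ((∑ i, bb J k i * xi x i) * (∑ j, bb J k j * xi x j))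
        = ∑ i, ∑ j, bb J k i * bb J k j * (wt J v w x k * (xi x i * xi x j)) := by
    intro k x
    rw [Finset.sum_mul_sum, Finset.mul_sum]
    apply Finset.sum_congr rfl
    intro i _
    rw [Finset.mul_sum]
    apply Finset.sum_congr rfl
    intro j _
    ring
  have lhs : ∑ k, ∑ x, wt J v w x k * ((∑ i, bb J k i * xi x i) * (∑ j, bb J k j * xi x j))
      = ∑ i, ∑ j, ∑ k, bb J k i * bb J k j * ∑ x, wt J v w x k * (xi x i * xi x j) := by
    rw [Finset.sum_congr rfl (fun k _ => Finset.sum_congr rfl (fun x _ => expand k x))]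
    have s1 : ∀ k : ι, ∑ x, ∑ i, ∑ j, bb J k i * bb J k j * (wt J v w x k * (xi x i * xi x j))
        = ∑ i, ∑ j, bb J k i * bb J k j * ∑ x, wt J v w x k * (xi x i * xi x j) := by
      intro k
      rw [Finset.sum_comm]
      apply Finset.sum_congr rfl
      intro i _
      rw [Finset.sum_comm]
      apply Finset.sum_congr rfl
      intro j _
      rw [Finset.mul_sum]
    rw [Finset.sum_congr rfl (fun k _ => s1 k), Finset.sum_comm]
    apply Finset.sum_congr rfl
    intro i _
    rw [Finset.sum_comm]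
  rw [lhs]
  have diag : ∀ i : Fin n,
      ∑ j, ∑ k, bb J k i * bb J k j * ∑ x, wt J v w x k * (xi x i * xi x j)
        = ∑ k, bb J k i * ∑ x, wt J v w x k := by
    intro i
    rw [Fintype.sum_eq_single i (fun j hj => cross_zero J v w hcover i j hj)]
    apply Finset.sum_congr rfl
    intro k _
    rw [bb_mul_self]
    congr 1
    apply Finset.sum_congr rfl
    intro x _
    rw [xi_sq, mul_one]
  rw [Finset.sum_congr rfl (fun i _ => diag i), Finset.sum_comm]
  apply Finset.sum_congr rfl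
  intro k _
  rw [← Finset.sum_mul, sum_bb, mul_comm, Finset.sum_mul]

/-- The main inequality. -/
theorem levelOne_sq_le [Fintype ι] (hw : ∀ k, 0 ≤ w k)
    (hcover : ∀ x : Fin n → ℤˣ, ∑ k, wt J v w x k = 1)
    (hconst : ∀ k, 0 < w k → ∀ x y : Fin n → ℤˣ,
      (∀ i ∈ J k, x i = v k i) → (∀ i ∈ J k, y i = v k i) → f x = f y) :
    (levelOneSum f) ^ 2
      ≤ (∑ x : Fin n → ℤˣ, ∑ k, wt J v w x k * ((J k).card : ℚ)) / 2 ^ n := by
  set T : ℚ := ∑ x : Fin n → ℤˣ, ((f x : ℤ) : ℚ) * ∑ i, xi x i with hT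
  set Q : ℚ := ∑ x : Fin n → ℤˣ, ∑ k, wt J v w x k * ((J k).card : ℚ) with hQ
  have hN : (0 : ℚ) < 2 ^ n := by positivity
  -- Step 1 and 2
  have hT2 : T = ∑ k, ∑ x, wt J v w x k * ((f x : ℤ) : ℚ) * ∑ i, bb J k i * xi x i := by
    rw [← Finset.sum_congr rfl (fun k _ => piece_linear f J v w hw hconst k), Finset.sum_comm, hT]
    apply Finset.sum_congr rfl
    intro x _
    rw [← Finset.sum_mul, ← Finset.sum_mul, hcover x, one_mul]
  have hff : ∀ x : Fin n → ℤˣ, ((f x : ℤ) : ℚ) * ((f x : ℤ) : ℚ) = 1 := by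
    intro x
    rcases Int.units_eq_one_or (f x) with h | h <;> simp [h]
  -- Step 3
  have key : ∀ t : ℚ, 0 ≤ Q - 2 * t * T + t ^ 2 * 2 ^ n := by
    intro t
    have hnn : 0 ≤ ∑ k, ∑ x, wt J v w x k *
        ((∑ i, bb J k i * xi x i) - t * ((f x : ℤ) : ℚ)) ^ 2 := by
      apply Finset.sum_nonneg
      intro k _
      apply Finset.sum_nonneg
      intro x _
      exact mul_nonneg (wt_nonneg J v w hw x k) (sq_nonneg _)
    have e : ∑ k, ∑ x, wt J v w x k * ((∑ i, bb J k i * xi x i) - t * ((f x : ℤ) : ℚ)) ^ 2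
        = Q - 2 * t * T + t ^ 2 * 2 ^ n := by
      have e1 : ∀ (k : ι) (x : Fin n → ℤˣ),
          wt J v w x k * ((∑ i, bb J k i * xi x i) - t * ((f x : ℤ) : ℚ)) ^ 2
            = wt J v w x k * ((∑ i, bb J k i * xi x i) * (∑ j, bb J k j * xi x j))
              - 2 * t * (wt J v w x k * ((f x : ℤ) : ℚ) * ∑ i, bb J k i * xi x i)
              + t ^ 2 * wt J v w x k := by
        intro k x
        have := hff x
        linear_combination (t ^ 2 * wt J v w x k) * this
      rw [Finset.sum_congr rfl (fun k _ => Finset.sum_congr rfl (fun x _ => e1 k x))]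
      simp only [Finset.sum_add_distrib, Finset.sum_sub_distrib, ← Finset.mul_sum]
      rw [second_moment J v w hcover, ← hT2]
      have e3 : ∑ k, ∑ x, wt J v w x k = (2 : ℚ) ^ n := by
        rw [Finset.sum_comm, Finset.sum_congr rfl (fun x _ => hcover x)]
        rw [Finset.sum_const, Finset.card_univ, nsmul_eq_mul, mul_one, card_cube]
      have e4 : ∑ k, ∑ x, wt J v w x k * ((J k).card : ℚ) = Q := by
        rw [hQ, Finset.sum_comm]
      rw [e3, e4]
    rw [← e]
    exact hnn
  have hk := key (T / 2 ^ n)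
  rw [levelOneSum_eq, ← hT, div_pow, div_le_div_iff₀ (by positivity) hN]
  have h2 : Q - 2 * (T / 2 ^ n) * T + (T / 2 ^ n) ^ 2 * 2 ^ n = Q - T ^ 2 / 2 ^ n := by
    field_simp
    ring
  rw [h2] at hk
  have h3 : T ^ 2 / 2 ^ n ≤ Q := by linarith
  rw [div_le_iff₀ hN] at h3
  calc T ^ 2 * 2 ^ n ≤ Q * 2 ^ n * 2 ^ n := by nlinarith
    _ = Q * (2 ^ n) ^ 2 := by ring

end main

end Vale.Agent.Lib.P047
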