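import Mathlib
import Vale.Agent.Lib.P047.Defs
import Vale.Agent.Lib.P047.Partition

/-!
A family of Boolean functions of even degree `d` whose level-one Fourier coefficients sum to
more than `B_d`: majority on `m = d - 3` bits, modified on the two middle layers by a
seven-variable function of degree at most four whose level-one sum is `7/4`.
-/

namespace Vale.Agent.Lib.P047

open Finset

/-! ### Summation lemmas on the cube -/

theorem sum_units (G : ℤˣ → ℤ) : ∑ s : ℤˣ, G s = G 1 + G (-1) := by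
  have h : (Finset.univ : Finset ℤˣ) = {1, -1} := by decide
  rw [h, Finset.sum_pair (by decide)]

theorem sum_cons_units {n : ℕ} (G : (Fin (n + 1) → ℤˣ) → ℤ) :
    ∑ w, G w = ∑ y : Fin n → ℤˣ, (G (Fin.cons 1 y) + G (Fin.cons (-1) y)) := by
  rw [← (Fin.consEquiv (fun _ : Fin (n + 1) => ℤˣ)).sum_comp, Fintype.sum_prod_type, sum_units,
    ← Finset.sum_add_distrib]
  rfl

theorem sum_append {a b : ℕ} (G : (Fin (a + b) → ℤˣ) → ℤ) :
    ∑ z, G z = ∑ x : Fin b → ℤˣ, ∑ y : Fin a → ℤˣ, G (Fin.append y x) := by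
  rw [← (Fin.appendEquiv a b).sum_comp, Fintype.sum_prod_type, Finset.sum_comm]
  rfl

theorem sum_neg_cube {m : ℕ} (G : (Fin m → ℤˣ) → ℤ) : ∑ x, G x = ∑ x, G (-x) :=
  (Equiv.sum_comp (Equiv.neg (Fin m → ℤˣ)) G).symm

/-- The sum of the coordinates of a sign vector. -/
def lsum {m : ℕ} (x : Fin m → ℤˣ) : ℤ := ∑ j, ((x j : ℤˣ) : ℤ)

theorem lsum_neg {m : ℕ} (x : Fin m → ℤˣ) : lsum (-x) = - lsum x := by
  unfold lsum
  rw [← Finset.sum_neg_distrib]
  apply Finset.sum_congr rfl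
  intro j _
  simp

theorem lsum_cons {n : ℕ} (s : ℤˣ) (y : Fin n → ℤˣ) :
    lsum (Fin.cons s y : Fin (n + 1) → ℤˣ) = (s : ℤ) + lsum y := by
  unfold lsum
  rw [Fin.sum_univ_succ]
  simp

theorem lsum_append {a b : ℕ} (y : Fin a → ℤˣ) (x : Fin b → ℤˣ) :
    lsum (Fin.append y x) = lsum y + lsum x := by
  unfold lsum
  rw [Fin.sum_univ_add]
  simp

/-- The coordinate sum has the parity of the number of coordinates. -/
theorem lsum_parity {m : ℕ} (x : Fin m → ℤˣ) : (2 : ℤ) ∣ lsum x - m := by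
  have h : lsum x - m = ∑ j : Fin m, (((x j : ℤˣ) : ℤ) - 1) := by
    unfold lsum
    rw [Finset.sum_sub_distrib]
    simp
  rw [h]
  apply Finset.dvd_sum
  intro j _
  rcases Int.units_eq_one_or (x j) with h1 | h1 <;> simp [h1]

/-- A sum over the cube of a product of coordinates over a nonempty set vanishes. -/
theorem sum_prod_eq_zero {n : ℕ} (T : Finset (Fin n)) (hT : T.Nonempty) :
    ∑ y : Fin n → ℤˣ, ∏ i ∈ T, ((y i : ℤˣ) : ℤ) = 0 := by
  obtain ⟨i0, hi0⟩ := hT
  have hq : ((∑ y : Fin n → ℤˣ, ∏ i ∈ T, ((y i : ℤˣ) : ℤ) : ℤ) : ℚ) = 0 := by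
    push_cast
    apply sum_eq_zero_of_flip i0
    intro y
    rw [← Finset.mul_prod_erase T _ hi0, ← Finset.mul_prod_erase T _ hi0, flip_same]
    have he : ∏ i ∈ T.erase i0, (((flip i0 y i : ℤˣ) : ℤ) : ℚ)
        = ∏ i ∈ T.erase i0, (((y i : ℤˣ) : ℤ) : ℚ) := by
      apply Finset.prod_congr rfl
      intro i hi
      rw [flip_ne _ _ _ (Finset.ne_of_mem_erase hi)]
    rw [he]
    simp
  exact_mod_cast hq

/-! ### Integer Fourier sums -/

/-- The unnormalised Fourier coefficient `sum_x f(x) prod_{i in S} x_i`. -/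
def isum {n : ℕ} (f : (Fin n → ℤˣ) → ℤˣ) (S : Finset (Fin n)) : ℤ :=
  ∑ x : Fin n → ℤˣ, ((f x : ℤˣ) : ℤ) * ∏ i ∈ S, ((x i : ℤˣ) : ℤ)

theorem fourierCoeff_eq_isum {n : ℕ} (f : (Fin n → ℤˣ) → ℤˣ) (S : Finset (Fin n)) :
    fourierCoeff f S = ((isum f S : ℤ) : ℚ) / 2 ^ n := by
  unfold fourierCoeff isum
  push_cast
  rfl

theorem isum_eq_zero_of_fourierCoeff {n : ℕ} (f : (Fin n → ℤˣ) → ℤˣ) (S : Finset (Fin n))
    (h : fourierCoeff f S = 0) : isum f S = 0 := by
  rw [fourierCoeff_eq_isum] at h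
  have h2 : ((2 : ℚ) ^ n) ≠ 0 := by positivity
  rw [div_eq_zero_iff] at h
  rcases h with h | h
  · exact_mod_cast h
  · exact absurd h h2

theorem degree_le_of_isum {n : ℕ} (f : (Fin n → ℤˣ) → ℤˣ) (d : ℕ)
    (h : ∀ S : Finset (Fin n), d < S.card → isum f S = 0) : degree f ≤ d := by
  unfold degree
  apply Finset.sup_le
  intro S hS
  rw [Finset.mem_filter] at hS
  by_contra hc
  rw [not_le] at hc
  apply hS.2
  rw [fourierCoeff_eq_isum, h S hc]
  simp

theorem fourierCoeff_eq_zero_of_degree_lt {n : ℕ} (f : (Fin n → ℤˣ) → ℤˣ) (S : Finset (Fin n))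
    (h : degree f < S.card) : fourierCoeff f S = 0 := by
  by_contra hc
  have : S.card ≤ degree f := by
    unfold degree
    apply Finset.le_sup (f := Finset.card)
    rw [Finset.mem_filter]
    exact ⟨Finset.mem_univ _, hc⟩
  omega

/-- The unnormalised level-one sum `sum_x f(x) (x_1 + ... + x_n)`. -/
def wsum {n : ℕ} (f : (Fin n → ℤˣ) → ℤˣ) : ℤ :=
  ∑ x : Fin n → ℤˣ, ((f x : ℤˣ) : ℤ) * lsum x

theorem levelOneSum_eq_wsum {n : ℕ} (f : (Fin n → ℤˣ) → ℤˣ) :
    levelOneSum f = ((wsum f : ℤ) : ℚ) / 2 ^ n := by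
  rw [levelOneSum_eq]
  unfold wsum lsum xi
  push_cast
  rfl

/-- The unnormalised `B_d`: `sum_x |x_1 + ... + x_d|`. -/
def bsum (d : ℕ) : ℤ := ∑ x : Fin d → ℤˣ, |lsum x|

theorem bMaj_eq_bsum (d : ℕ) : bMaj d = ((bsum d : ℤ) : ℚ) / 2 ^ d := by
  unfold bMaj bsum lsum
  push_cast
  rfl

/-! ### Splitting a set of coordinates of `Fin (a + b)` -/

/-- The part of `S` in the first block. -/
def leftPart {a b : ℕ} (S : Finset (Fin (a + b))) : Finset (Fin a) :=
  Finset.univ.filter (fun i => Fin.castAdd b i ∈ S)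

/-- The part of `S` in the second block. -/
def rightPart {a b : ℕ} (S : Finset (Fin (a + b))) : Finset (Fin b) :=
  Finset.univ.filter (fun j => Fin.natAdd a j ∈ S)

theorem prod_append {a b : ℕ} (S : Finset (Fin (a + b))) (y : Fin a → ℤˣ) (x : Fin b → ℤˣ) :
    ∏ i ∈ S, ((Fin.append y x i : ℤˣ) : ℤ)
      = (∏ i ∈ leftPart S, ((y i : ℤˣ) : ℤ)) * ∏ j ∈ rightPart S, ((x j : ℤˣ) : ℤ) := by
  unfold leftPart rightPart
  rw [Finset.prod_filter, Finset.prod_filter, ← Fintype.prod_ite_mem S, Fin.prod_univ_add]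
  simp

theorem card_parts {a b : ℕ} (S : Finset (Fin (a + b))) :
    S.card = (leftPart S).card + (rightPart S).card := by
  unfold leftPart rightPart
  rw [Finset.card_filter, Finset.card_filter,
    ← Fin.sum_univ_add (fun i => if i ∈ S then 1 else 0), ← Finset.card_filter]
  simp

/-! ### The construction -/

section gadget

variable (h : (Fin 7 → ℤˣ) → ℤˣ)

/-- The sign fed to the seven-variable function. -/
def sg (l : ℤ) : ℤˣ := if 0 < l then 1 else -1

/-- The construction on `{-1,1}^6 × {-1,1}^m`: the sign of `x_1 + ... + x_m` when this sum has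
absolute value at least `3`, and otherwise `h` applied to the sign of the sum and `y`. -/
def gad {m : ℕ} (y : Fin 6 → ℤˣ) (x : Fin m → ℤˣ) : ℤˣ :=
  if 3 ≤ lsum x then 1 else if lsum x ≤ -3 then -1 else h (Fin.cons (sg (lsum x)) y)

/-- The construction as a function on `{-1,1}^(6+m)`. -/
def gadFun (m : ℕ) : (Fin (6 + m) → ℤˣ) → ℤˣ :=
  fun z => gad h (fun i => z (Fin.castAdd m i)) (fun j => z (Fin.natAdd 6 j))

theorem gadFun_append (m : ℕ) (y : Fin 6 → ℤˣ) (x : Fin m → ℤˣ) :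
    gadFun h m (Fin.append y x) = gad h y x := by
  unfold gadFun
  simp

/-- Partial Fourier sums of `h` with the first coordinate fixed. -/
def aSum (T : Finset (Fin 6)) (s : ℤˣ) : ℤ :=
  ∑ y : Fin 6 → ℤˣ, ((h (Fin.cons s y) : ℤˣ) : ℤ) * ∏ i ∈ T, ((y i : ℤˣ) : ℤ)

theorem isum_map_succ (T : Finset (Fin 6)) :
    isum h (T.map (Fin.succEmb 6)) = aSum h T 1 + aSum h T (-1) := by
  unfold isum aSum
  rw [sum_cons_units, Finset.sum_add_distrib]
  congr 1 <;>
  · apply Finset.sum_congr rfl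
    intro y _
    rw [Finset.prod_map]
    simp

theorem zero_notMem_map_succ (T : Finset (Fin 6)) : (0 : Fin 7) ∉ T.map (Fin.succEmb 6) := by
  simp [Fin.succ_ne_zero]

theorem isum_insert_zero (T : Finset (Fin 6)) :
    isum h (insert 0 (T.map (Fin.succEmb 6))) = aSum h T 1 - aSum h T (-1) := by
  unfold isum aSum
  rw [sum_cons_units, Finset.sum_add_distrib, sub_eq_add_neg, ← Finset.sum_neg_distrib]
  congr 1 <;>
  · apply Finset.sum_congr rfl
    intro y _
    rw [Finset.prod_insert (zero_notMem_map_succ T), Finset.prod_map]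
    simp

theorem aSum_zero (hdeg : ∀ S : Finset (Fin 7), 4 < S.card → isum h S = 0)
    (T : Finset (Fin 6)) (hT : 5 ≤ T.card) (s : ℤˣ) : aSum h T s = 0 := by
  have h1 := hdeg (T.map (Fin.succEmb 6)) (by rw [Finset.card_map]; omega)
  have h2 := hdeg (insert 0 (T.map (Fin.succEmb 6)))
    (by rw [Finset.card_insert_of_notMem (zero_notMem_map_succ T), Finset.card_map]; omega)
  rw [isum_map_succ] at h1
  rw [isum_insert_zero] at h2
  rcases Int.units_eq_one_or s with hs | hs <;> subst hs <;> omega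

theorem aSum_eq (hdeg : ∀ S : Finset (Fin 7), 4 < S.card → isum h S = 0)
    (T : Finset (Fin 6)) (hT : T.card = 4) : aSum h T 1 = aSum h T (-1) := by
  have h2 := hdeg (insert 0 (T.map (Fin.succEmb 6)))
    (by rw [Finset.card_insert_of_notMem (zero_notMem_map_succ T), Finset.card_map]; omega)
  rw [isum_insert_zero] at h2
  omega

theorem inner_sum {m : ℕ} (T : Finset (Fin 6)) (hT : T.Nonempty) (x : Fin m → ℤˣ) :
    ∑ y : Fin 6 → ℤˣ, ((gad h y x : ℤˣ) : ℤ) * ∏ i ∈ T, ((y i : ℤˣ) : ℤ)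
      = if 3 ≤ lsum x ∨ lsum x ≤ -3 then 0 else aSum h T (sg (lsum x)) := by
  unfold gad
  by_cases h1 : 3 ≤ lsum x
  · simp [h1, sum_prod_eq_zero T hT]
  · by_cases h2 : lsum x ≤ -3
    · simp [h1, h2, sum_prod_eq_zero T hT]
    · simp [h1, h2, aSum]

theorem isum_gadFun_eq_zero (hdeg : ∀ S : Finset (Fin 7), 4 < S.card → isum h S = 0)
    (m : ℕ) (hm : Odd m) (S : Finset (Fin (6 + m))) (hS : m + 3 < S.card) :
    isum (gadFun h m) S = 0 := by
  have hc := card_parts S
  have hR : (rightPart S).card ≤ m := by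
    have := Finset.card_le_univ (rightPart S)
    simpa using this
  have hL4 : 4 ≤ (leftPart S).card := by omega
  have hLne : (leftPart S).Nonempty := by
    rw [← Finset.card_pos]; omega
  unfold isum
  rw [sum_append]
  have step : ∀ x : Fin m → ℤˣ,
      ∑ y : Fin 6 → ℤˣ, ((gadFun h m (Fin.append y x) : ℤˣ) : ℤ)
          * ∏ i ∈ S, ((Fin.append y x i : ℤˣ) : ℤ)
        = (∏ j ∈ rightPart S, ((x j : ℤˣ) : ℤ))
          * (if 3 ≤ lsum x ∨ lsum x ≤ -3 then 0 else aSum h (leftPart S) (sg (lsum x))) := by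
    intro x
    rw [← inner_sum h (leftPart S) hLne x, Finset.mul_sum]
    apply Finset.sum_congr rfl
    intro y _
    rw [gadFun_append, prod_append]
    ring
  rw [Finset.sum_congr rfl (fun x _ => step x)]
  by_cases h5 : 5 ≤ (leftPart S).card
  · apply Finset.sum_eq_zero
    intro x _
    rw [aSum_zero h hdeg _ h5]
    simp
  · have h4 : (leftPart S).card = 4 := by omega
    have hRm : (rightPart S).card = m := by omega
    have hRu : rightPart S = Finset.univ := by
      apply Finset.eq_univ_of_card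
      rw [hRm]; simp
    have ha := aSum_eq h hdeg _ h4
    have hsg : ∀ l : ℤ, aSum h (leftPart S) (sg l) = aSum h (leftPart S) 1 := by
      intro l
      unfold sg
      split
      · rfl
      · exact ha.symm
    simp only [hsg, hRu]
    have hneg : ∀ x : Fin m → ℤˣ,
        (∏ j, (((-x) j : ℤˣ) : ℤ))
            * (if 3 ≤ lsum (-x) ∨ lsum (-x) ≤ -3 then 0 else aSum h (leftPart S) 1)
          = - ((∏ j, ((x j : ℤˣ) : ℤ))
            * (if 3 ≤ lsum x ∨ lsum x ≤ -3 then 0 else aSum h (leftPart S) 1)) := by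
      intro x
      have hp : ∏ j, (((-x) j : ℤˣ) : ℤ) = - ∏ j, ((x j : ℤˣ) : ℤ) := by
        have hj : ∀ j, (((-x) j : ℤˣ) : ℤ) = - ((x j : ℤˣ) : ℤ) := by intro j; simp
        simp only [hj]
        rw [Finset.prod_neg]
        simp [hm.neg_one_pow]
      rw [hp, lsum_neg]
      have hcond : (3 ≤ -lsum x ∨ -lsum x ≤ -3) ↔ (3 ≤ lsum x ∨ lsum x ≤ -3) := by omega
      simp only [hcond]
      ring
    have e := sum_neg_cube (fun x : Fin m → ℤˣ => (∏ j, ((x j : ℤˣ) : ℤ))
            * (if 3 ≤ lsum x ∨ lsum x ≤ -3 then 0 else aSum h (leftPart S) 1))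
    simp only [hneg, Finset.sum_neg_distrib] at e
    linarith

theorem degree_gadFun_le (hdeg : ∀ S : Finset (Fin 7), 4 < S.card → fourierCoeff h S = 0)
    (m : ℕ) (hm : Odd m) : degree (gadFun h m) ≤ m + 3 := by
  apply degree_le_of_isum
  intro S hS
  exact isum_gadFun_eq_zero h
    (fun T hT => isum_eq_zero_of_fourierCoeff h T (hdeg T hT)) m hm S hS

/-! ### The level-one sum of the construction -/

theorem sum_lsum_eq_zero (n : ℕ) : ∑ y : Fin n → ℤˣ, lsum y = 0 := by
  have e := sum_neg_cube (fun y : Fin n → ℤˣ => lsum y)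
  simp only [lsum_neg, Finset.sum_neg_distrib] at e
  linarith

theorem card_cube6 : (Finset.univ : Finset (Fin 6 → ℤˣ)).card = 64 := by
  rw [Finset.card_univ, Fintype.card_fun, Fintype.card_units_int, Fintype.card_fin]
  norm_num

/-- Partial level-one sums of `h` with the first coordinate fixed. -/
def rSum (s : ℤˣ) : ℤ :=
  ∑ y : Fin 6 → ℤˣ, ((h (Fin.cons s y) : ℤˣ) : ℤ) * (lsum y + (s : ℤ))

theorem wsum_eq_rSum : wsum h = rSum h 1 + rSum h (-1) := by
  unfold wsum rSum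
  rw [sum_cons_units, Finset.sum_add_distrib]
  simp only [lsum_cons]
  have e1 : ∀ y : Fin 6 → ℤˣ, (((1 : ℤˣ) : ℤ) + lsum y) = lsum y + ((1 : ℤˣ) : ℤ) :=
    fun y => add_comm _ _
  have e2 : ∀ y : Fin 6 → ℤˣ, (((-1 : ℤˣ) : ℤ) + lsum y) = lsum y + ((-1 : ℤˣ) : ℤ) :=
    fun y => add_comm _ _
  simp only [e1, e2]

/-- The inner sum over `y` of the construction times the sum of all coordinates. -/
def gSum {m : ℕ} (x : Fin m → ℤˣ) : ℤ :=
  ∑ y : Fin 6 → ℤˣ, ((gad h y x : ℤˣ) : ℤ) * (lsum y + lsum x)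

theorem wsum_gadFun (m : ℕ) : wsum (gadFun h m) = ∑ x : Fin m → ℤˣ, gSum h x := by
  unfold wsum gSum
  rw [sum_append]
  apply Finset.sum_congr rfl
  intro x _
  apply Finset.sum_congr rfl
  intro y _
  rw [gadFun_append, lsum_append]

theorem gSum_hi {m : ℕ} (x : Fin m → ℤˣ) (hx : 3 ≤ lsum x) : gSum h x = 64 * lsum x := by
  unfold gSum gad
  simp only [hx, if_true, Units.val_one, one_mul]
  rw [Finset.sum_add_distrib, sum_lsum_eq_zero, Finset.sum_const, card_cube6]
  simp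

theorem gSum_lo {m : ℕ} (x : Fin m → ℤˣ) (hx : lsum x ≤ -3) : gSum h x = -64 * lsum x := by
  have h1 : ¬ (3 ≤ lsum x) := by omega
  unfold gSum gad
  simp only [h1, hx, if_true, if_false, Units.val_neg, Units.val_one, neg_mul, one_mul]
  rw [Finset.sum_neg_distrib, Finset.sum_add_distrib, sum_lsum_eq_zero, Finset.sum_const,
    card_cube6]
  simp

theorem gSum_one {m : ℕ} (x : Fin m → ℤˣ) (hx : lsum x = 1) : gSum h x = rSum h 1 := by
  unfold gSum gad rSum sg
  simp [hx]

theorem gSum_neg_one {m : ℕ} (x : Fin m → ℤˣ) (hx : lsum x = -1) : gSum h x = rSum h (-1) := by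
  unfold gSum gad rSum sg
  simp [hx]

/-- `beta l = sum over a, b, c in {-1,1} of |l + a + b + c|`. -/
def beta (l : ℤ) : ℤ := |l + 3| + 3 * |l + 1| + 3 * |l - 1| + |l - 3|

theorem sum_shift {n : ℕ} (φ : ℤ → ℤ) :
    ∑ u : Fin (n + 1) → ℤˣ, φ (lsum u) = ∑ x : Fin n → ℤˣ, (φ (1 + lsum x) + φ (-1 + lsum x)) := by
  rw [sum_cons_units]
  apply Finset.sum_congr rfl
  intro x _
  rw [lsum_cons, lsum_cons]
  simp

theorem bsum_add_three (m : ℕ) : bsum (m + 3) = ∑ x : Fin m → ℤˣ, beta (lsum x) := by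
  have e1 := sum_shift (n := m + 2) (fun l => |l|)
  have e2 := sum_shift (n := m + 1) (fun l => |1 + l| + |-1 + l|)
  have e3 := sum_shift (n := m)
    (fun l => (|1 + (1 + l)| + |-1 + (1 + l)|) + (|1 + (-1 + l)| + |-1 + (-1 + l)|))
  have e4 : bsum (m + 3) = ∑ u : Fin (m + 2 + 1) → ℤˣ, |lsum u| := rfl
  rw [e4, e1, e2, e3]
  apply Finset.sum_congr rfl
  intro x _
  unfold beta
  have a1 : (1 : ℤ) + (1 + (1 + lsum x)) = lsum x + 3 := by ring
  have a2 : (-1 : ℤ) + (1 + (1 + lsum x)) = lsum x + 1 := by ring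
  have a3 : (1 : ℤ) + (-1 + (1 + lsum x)) = lsum x + 1 := by ring
  have a4 : (-1 : ℤ) + (-1 + (1 + lsum x)) = lsum x - 1 := by ring
  have a5 : (1 : ℤ) + (1 + (-1 + lsum x)) = lsum x + 1 := by ring
  have a6 : (-1 : ℤ) + (1 + (-1 + lsum x)) = lsum x - 1 := by ring
  have a7 : (1 : ℤ) + (-1 + (-1 + lsum x)) = lsum x - 1 := by ring
  have a8 : (-1 : ℤ) + (-1 + (-1 + lsum x)) = lsum x - 3 := by ring
  rw [a1, a2, a3, a4, a5, a6, a7, a8]
  ring

theorem beta_hi (l : ℤ) (hl : 3 ≤ l) : beta l = 8 * l := by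
  unfold beta
  rw [abs_of_nonneg (by omega), abs_of_nonneg (by omega), abs_of_nonneg (by omega),
    abs_of_nonneg (by omega)]
  ring

theorem beta_lo (l : ℤ) (hl : l ≤ -3) : beta l = -8 * l := by
  unfold beta
  rw [abs_of_nonpos (by omega), abs_of_nonpos (by omega), abs_of_nonpos (by omega),
    abs_of_nonpos (by omega)]
  ring

theorem beta_one : beta 1 = 12 := by
  unfold beta
  norm_num

theorem beta_neg_one : beta (-1) = 12 := by
  unfold beta
  norm_num

/-- Alternating sign vector. -/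
def altv (m : ℕ) : Fin m → ℤˣ := fun j => if (j : ℕ) % 2 = 0 then 1 else -1

theorem sum_alt_range (k : ℕ) :
    ∑ i ∈ Finset.range (2 * k + 1), (if i % 2 = 0 then (1 : ℤ) else -1) = 1 := by
  induction k with
  | zero => simp
  | succ k ih =>
    have e : 2 * (k + 1) + 1 = (2 * k + 1) + 1 + 1 := by ring
    have h1 : (2 * k + 1) % 2 = 1 := by omega
    have h2 : (2 * k + 1 + 1) % 2 = 0 := by omega
    rw [e, Finset.sum_range_succ, Finset.sum_range_succ, ih, h1, h2]
    simp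

theorem lsum_altv (m : ℕ) (hm : Odd m) : lsum (altv m) = 1 := by
  obtain ⟨k, rfl⟩ := hm
  unfold lsum altv
  have e : ∀ j : Fin (2 * k + 1), ((((if (j : ℕ) % 2 = 0 then 1 else -1) : ℤˣ) : ℤˣ) : ℤ)
      = (fun i : ℕ => if i % 2 = 0 then (1 : ℤ) else -1) (j : ℕ) := by
    intro j
    by_cases hj : (j : ℕ) % 2 = 0 <;> simp [hj]
  rw [Finset.sum_congr rfl (fun j _ => e j)]
  exact (Fin.sum_univ_eq_sum_range (fun i : ℕ => if i % 2 = 0 then (1 : ℤ) else -1)
    (2 * k + 1)).trans (sum_alt_range k)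

/-- The pointwise comparison: `gSum x + gSum (-x)` against `16 * beta (lsum x)`. -/
theorem gSum_pair (hW : wsum h = 224) (m : ℕ) (hm : Odd m) (x : Fin m → ℤˣ) :
    16 * beta (lsum x) ≤ gSum h x + gSum h (-x)
      ∧ (lsum x = 1 → 16 * beta (lsum x) + 32 ≤ gSum h x + gSum h (-x)) := by
  have hr := wsum_eq_rSum h
  rw [hW] at hr
  have hn := lsum_neg x
  by_cases h1 : 3 ≤ lsum x
  · rw [gSum_hi h x h1, gSum_lo h (-x) (by omega), beta_hi _ h1, hn]
    constructor
    · omega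
    · intro h3; omega
  · by_cases h2 : lsum x ≤ -3
    · rw [gSum_lo h x h2, gSum_hi h (-x) (by omega), beta_lo _ h2, hn]
      constructor
      · omega
      · intro h3; omega
    · have hp := lsum_parity x
      obtain ⟨k, hk⟩ := hm
      have hcases : lsum x = 1 ∨ lsum x = -1 := by
        have hm2 : (m : ℤ) = 2 * (k : ℤ) + 1 := by exact_mod_cast hk
        rw [hm2] at hp
        omega
      rcases hcases with h3 | h3
      · rw [gSum_one h x h3, gSum_neg_one h (-x) (by omega), h3, beta_one]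
        constructor
        · omega
        · intro _; omega
      · rw [gSum_neg_one h x h3, gSum_one h (-x) (by omega), h3, beta_neg_one]
        constructor
        · omega
        · intro h4; omega

theorem wsum_gadFun_gt (hW : wsum h = 224) (m : ℕ) (hm : Odd m) :
    8 * bsum (m + 3) + 16 ≤ wsum (gadFun h m) := by
  rw [wsum_gadFun, bsum_add_three]
  have e := sum_neg_cube (fun x : Fin m → ℤˣ => gSum h x)
  have hsum : ∑ x : Fin m → ℤˣ, (gSum h x + gSum h (-x) - 16 * beta (lsum x))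
      = 2 * ∑ x : Fin m → ℤˣ, gSum h x - 16 * ∑ x : Fin m → ℤˣ, beta (lsum x) := by
    rw [Finset.sum_sub_distrib, Finset.sum_add_distrib, ← e, ← Finset.mul_sum]
    ring
  have hnn : ∀ x ∈ (Finset.univ : Finset (Fin m → ℤˣ)),
      0 ≤ gSum h x + gSum h (-x) - 16 * beta (lsum x) := by
    intro x _
    have := (gSum_pair h hW m hm x).1
    omega
  have hx0 : 32 ≤ gSum h (altv m) + gSum h (-(altv m)) - 16 * beta (lsum (altv m)) := by
    have := (gSum_pair h hW m hm (altv m)).2 (lsum_altv m hm)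
    omega
  have hle := Finset.single_le_sum hnn (Finset.mem_univ (altv m))
  omega

end gadget

/-- Main statement on the construction: if `h` on seven variables has degree at most four and
level-one sum `7/4`, then for odd `m` the construction has degree at most `m + 3` and level-one
sum larger than `B_(m+3)`. -/
theorem gadget_main (h : (Fin 7 → ℤˣ) → ℤˣ)
    (hdeg : ∀ S : Finset (Fin 7), 4 < S.card → fourierCoeff h S = 0)
    (hW : levelOneSum h = 7 / 4) (m : ℕ) (hm : Odd m) :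
    degree (gadFun h m) ≤ m + 3 ∧ bMaj (m + 3) < levelOneSum (gadFun h m) := by
  refine ⟨degree_gadFun_le h hdeg m hm, ?_⟩
  have hw : wsum h = 224 := by
    have h1 := levelOneSum_eq_wsum h
    rw [hW] at h1
    have h2 : ((wsum h : ℤ) : ℚ) = 224 := by
      rw [eq_div_iff (by norm_num)] at h1
      linarith
    exact_mod_cast h2
  have key := wsum_gadFun_gt h hw m hm
  rw [bMaj_eq_bsum, levelOneSum_eq_wsum]
  have keyq : (8 : ℚ) * ((bsum (m + 3) : ℤ) : ℚ) + 16 ≤ ((wsum (gadFun h m) : ℤ) : ℚ) := by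
    exact_mod_cast key
  have e : (2 : ℚ) ^ (6 + m) = 8 * 2 ^ (m + 3) := by
    rw [pow_add, pow_add]
    ring
  rw [e, div_lt_div_iff₀ (by positivity) (by positivity)]
  have hpos : (0 : ℚ) < 2 ^ (m + 3) := by positivity
  nlinarith

end Vale.Agent.Lib.P047
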