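import Mathlib
import Vale.Agent.Lib.P047.Defs
import Vale.Agent.Lib.P047.Gadget
import Vale.Agent.Lib.P047.helper21.Assemble

/-!
Transfer of the constant-factor upper bound for real-valued `±1` functions to the
`ℤˣ`-valued setting of `Defs.lean`.
-/

namespace Vale.Agent.Lib.P047

open Finset

/-- The real-valued version of a Boolean function. -/
def toRealFun {n : ℕ} (f : (Fin n → ℤˣ) → ℤˣ) : (Fin n → ℤˣ) → ℝ := fun x => ((f x : ℤ) : ℝ)

theorem fc_toRealFun {n : ℕ} (f : (Fin n → ℤˣ) → ℤˣ) (S : Finset (Fin n)) :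
    helper21.fc (toRealFun f) S = ((fourierCoeff f S : ℚ) : ℝ) := by
  unfold helper21.fc helper21.chi toRealFun fourierCoeff
  push_cast
  rfl

/-- Constant-factor improvements of the bound `d` for Boolean functions of degree at most `d`. -/
theorem constant_factor {n : ℕ} (d : ℕ) (hd2 : 2 ≤ d) (f : (Fin n → ℤˣ) → ℤˣ)
    (hdeg : degree f ≤ d) :
    ∑ i : Fin n, |fourierCoeff f {i}| ≤ 39 / 40 * (d : ℚ)
      ∧ (Even d → ∑ i : Fin n, |fourierCoeff f {i}| ≤ (d : ℚ) - 1)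
      ∧ (40 ≤ d → ∑ i : Fin n, |fourierCoeff f {i}| ≤ 15 / 16 * (d : ℚ)) := by
  have hf : ∀ x, toRealFun f x = 1 ∨ toRealFun f x = -1 := by
    intro x
    unfold toRealFun
    rcases Int.units_eq_one_or (f x) with h | h <;> simp [h]
  have hd : ∀ S : Finset (Fin n), d < S.card → helper21.fc (toRealFun f) S = 0 := by
    intro S hS
    rw [fc_toRealFun, fourierCoeff_eq_zero_of_degree_lt f S (lt_of_le_of_lt hdeg hS)]
    simp
  have key := helper21.level1_abs d hd2 (toRealFun f) hf hd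
  have hsum : ∑ i : Fin n, |helper21.fc (toRealFun f) {i}|
      = ((∑ i : Fin n, |fourierCoeff f {i}| : ℚ) : ℝ) := by
    push_cast
    apply Finset.sum_congr rfl
    intro i _
    rw [fc_toRealFun]
  rw [hsum] at key
  have e0 : ((39 / 40 * (d : ℚ) : ℚ) : ℝ) = 39 / 40 * (d : ℝ) := by push_cast; ring
  have e1 : (((d : ℚ) - 1 : ℚ) : ℝ) = (d : ℝ) - 1 := by push_cast; ring
  have e2 : ((15 / 16 * (d : ℚ) : ℚ) : ℝ) = 15 / 16 * (d : ℝ) := by push_cast; ring
  refine ⟨?_, ?_, ?_⟩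
  · have h0 : ((∑ i : Fin n, |fourierCoeff f {i}| : ℚ) : ℝ) ≤ ((39 / 40 * (d : ℚ) : ℚ) : ℝ) := by
      rw [e0]
      exact key.1
    exact Rat.cast_le.mp h0
  · intro he
    have h1 : ((∑ i : Fin n, |fourierCoeff f {i}| : ℚ) : ℝ) ≤ (((d : ℚ) - 1 : ℚ) : ℝ) := by
      rw [e1]
      exact key.2.1 he
    exact Rat.cast_le.mp h1
  · intro h40
    have h2 : ((∑ i : Fin n, |fourierCoeff f {i}| : ℚ) : ℝ) ≤ ((15 / 16 * (d : ℚ) : ℚ) : ℝ) := by
      rw [e2]
      exact key.2.2 h40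
    exact Rat.cast_le.mp h2

end Vale.Agent.Lib.P047
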