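import Mathlib
import Vale.Agent.Lib.P047.Defs

/-!
Fourier analysis on the cube `{-1,1}^n` (modelled as `Fin n → ℤˣ`) and a verified
fast Walsh-Hadamard transform on perfect binary trees, used to certify the degree and
the level-one coefficients of explicitly given Boolean functions.
-/

namespace Vale.Agent.Lib.P047

open Finset

/-! ### Perfect binary trees with integer leaves -/

/-- Perfect binary trees of depth `n` with integer leaves. -/
def BT : ℕ → Type
  | 0 => ℤ
  | (n + 1) => BT n × BT n

/-- The integer stored in a tree of depth `0`. -/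
def BT.leafVal (t : BT 0) : ℤ := t

/-- The tree of depth `0` storing an integer. -/
def BT.mkLeaf (v : ℤ) : BT 0 := v

/-- Evaluate a tree along a path of bits (`false` = left, `true` = right). -/
def BT.eval : (n : ℕ) → BT n → (Fin n → Bool) → ℤ
  | 0, v, _ => BT.leafVal v
  | (n + 1), t, x => if x 0 then BT.eval n t.2 (Fin.tail x) else BT.eval n t.1 (Fin.tail x)

def BT.add : (n : ℕ) → BT n → BT n → BT n
  | 0, a, b => BT.mkLeaf (BT.leafVal a + BT.leafVal b)
  | (n + 1), a, b => (BT.add n a.1 b.1, BT.add n a.2 b.2)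

def BT.sub : (n : ℕ) → BT n → BT n → BT n
  | 0, a, b => BT.mkLeaf (BT.leafVal a - BT.leafVal b)
  | (n + 1), a, b => (BT.sub n a.1 b.1, BT.sub n a.2 b.2)

/-- Walsh-Hadamard transform. -/
def BT.wht : (n : ℕ) → BT n → BT n
  | 0, v => v
  | (n + 1), t => (BT.add n (BT.wht n t.1) (BT.wht n t.2), BT.sub n (BT.wht n t.1) (BT.wht n t.2))

/-- All leaves are zero. -/
def BT.isZero : (n : ℕ) → BT n → Bool
  | 0, v => decide (BT.leafVal v = 0)
  | (n + 1), t => BT.isZero n t.1 && BT.isZero n t.2

/-- All leaves reached by paths with more than `d` bits `true` are zero. -/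
def BT.low : (n : ℕ) → ℕ → BT n → Bool
  | 0, _, _ => true
  | (n + 1), 0, t => BT.low n 0 t.1 && BT.isZero n t.2
  | (n + 1), (d + 1), t => BT.low n (d + 1) t.1 && BT.low n d t.2

/-- All leaves are `1` or `-1`. -/
def BT.isPM : (n : ℕ) → BT n → Bool
  | 0, v => decide (BT.leafVal v = 1) || decide (BT.leafVal v = -1)
  | (n + 1), t => BT.isPM n t.1 && BT.isPM n t.2

/-- The tree of depth `n` whose leaf number `k` (bit `i` of `k` = step `n - 1 - i` ... see
`BT.ofNat`) is `1` if bit `off + k` of `T` is set and `-1` otherwise. -/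
def BT.ofNat (T : ℕ) : (n : ℕ) → ℕ → BT n
  | 0, off => BT.mkLeaf (if T.testBit off then 1 else -1)
  | (n + 1), off => (BT.ofNat T n off, BT.ofNat T n (off + 2 ^ n))

/-- Character: `chi s x = prod_i (if s i and x i then -1 else 1)`. -/
def chi {n : ℕ} (s x : Fin n → Bool) : ℤ :=
  ∏ i : Fin n, if s i && x i then (-1 : ℤ) else 1

theorem sum_cons_bool {n : ℕ} (F : (Fin (n + 1) → Bool) → ℤ) :
    ∑ x : Fin (n + 1) → Bool, F x
      = ∑ y : Fin n → Bool, F (Fin.cons false y) + ∑ y : Fin n → Bool, F (Fin.cons true y) := by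
  rw [← (Fin.consEquiv (fun _ : Fin (n + 1) => Bool)).sum_comp, Fintype.sum_prod_type]
  simp [Fin.consEquiv]
  rw [add_comm]

theorem chi_cons {n : ℕ} (s : Fin (n + 1) → Bool) (b : Bool) (y : Fin n → Bool) :
    chi s (Fin.cons b y) = (if s 0 && b then (-1 : ℤ) else 1) * chi (Fin.tail s) y := by
  unfold chi
  rw [Fin.prod_univ_succ]
  simp [Fin.tail]

theorem BT.eval_add : ∀ (n : ℕ) (a b : BT n) (x : Fin n → Bool),
    BT.eval n (BT.add n a b) x = BT.eval n a x + BT.eval n b x
  | 0, _, _, _ => rfl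
  | (n + 1), a, b, x => by
    simp only [BT.eval, BT.add]
    split <;> exact BT.eval_add n _ _ _

theorem BT.eval_sub : ∀ (n : ℕ) (a b : BT n) (x : Fin n → Bool),
    BT.eval n (BT.sub n a b) x = BT.eval n a x - BT.eval n b x
  | 0, _, _, _ => rfl
  | (n + 1), a, b, x => by
    simp only [BT.eval, BT.sub]
    split <;> exact BT.eval_sub n _ _ _

theorem BT.eval_cons (n : ℕ) (t : BT (n + 1)) (b : Bool) (y : Fin n → Bool) :
    BT.eval (n + 1) t (Fin.cons b y) = if b then BT.eval n t.2 y else BT.eval n t.1 y := by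
  simp [BT.eval]

/-- Correctness of the Walsh-Hadamard transform. -/
theorem BT.eval_wht : ∀ (n : ℕ) (t : BT n) (s : Fin n → Bool),
    BT.eval n (BT.wht n t) s = ∑ x : Fin n → Bool, BT.eval n t x * chi s x
  | 0, t, s => by
    simp [BT.eval, BT.wht, chi]
  | (n + 1), t, s => by
    rw [sum_cons_bool]
    simp only [BT.eval_cons, chi_cons]
    have h1 := BT.eval_wht n t.1 (Fin.tail s)
    have h2 := BT.eval_wht n t.2 (Fin.tail s)
    simp only [BT.eval, BT.wht]
    by_cases h0 : s 0
    · simp only [h0, if_true, Bool.true_and, BT.eval_sub, h1, h2]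
      simp [Finset.sum_neg_distrib, sub_eq_add_neg]
    · simp only [h0, Bool.false_and, BT.eval_add, h1, h2]
      simp

theorem BT.eval_isZero : ∀ (n : ℕ) (t : BT n), BT.isZero n t = true →
    ∀ x : Fin n → Bool, BT.eval n t x = 0
  | 0, t, h, _ => by simpa [BT.isZero, BT.eval] using h
  | (n + 1), t, h, x => by
    simp only [BT.isZero, Bool.and_eq_true] at h
    simp only [BT.eval]
    split
    · exact BT.eval_isZero n _ h.2 _
    · exact BT.eval_isZero n _ h.1 _

/-- Number of `true` entries. -/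
def cnt {n : ℕ} (s : Fin n → Bool) : ℕ := (Finset.univ.filter (fun i => s i = true)).card

theorem cnt_succ {n : ℕ} (s : Fin (n + 1) → Bool) :
    cnt s = if s 0 then cnt (Fin.tail s) + 1 else cnt (Fin.tail s) := by
  unfold cnt
  rw [Fin.card_filter_univ_succ]
  rfl

theorem BT.eval_low : ∀ (n d : ℕ) (t : BT n), BT.low n d t = true →
    ∀ s : Fin n → Bool, d < cnt s → BT.eval n t s = 0
  | 0, d, t, _, s, hs => by
    simp [cnt] at hs
  | (n + 1), 0, t, h, s, hs => by
    simp only [BT.low, Bool.and_eq_true] at h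
    rw [cnt_succ] at hs
    simp only [BT.eval]
    by_cases h0 : s 0
    · simp only [h0, if_true]
      exact BT.eval_isZero n _ h.2 _
    · simp only [h0] at hs
      simp only [h0]
      exact BT.eval_low n 0 _ h.1 _ (by simpa using hs)
  | (n + 1), (d + 1), t, h, s, hs => by
    simp only [BT.low, Bool.and_eq_true] at h
    rw [cnt_succ] at hs
    simp only [BT.eval]
    by_cases h0 : s 0
    · simp only [h0, if_true] at hs ⊢
      exact BT.eval_low n d _ h.2 _ (by omega)
    · simp only [h0] at hs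
      simp only [h0]
      exact BT.eval_low n (d + 1) _ h.1 _ (by simpa using hs)

theorem BT.eval_isPM : ∀ (n : ℕ) (t : BT n), BT.isPM n t = true →
    ∀ x : Fin n → Bool, BT.eval n t x = 1 ∨ BT.eval n t x = -1
  | 0, t, h, _ => by simpa [BT.isPM, BT.eval] using h
  | (n + 1), t, h, x => by
    simp only [BT.isPM, Bool.and_eq_true] at h
    simp only [BT.eval]
    split
    · exact BT.eval_isPM n _ h.2 _
    · exact BT.eval_isPM n _ h.1 _

/-! ### From trees to Boolean functions on `{-1,1}^n` -/

/-- The bit vector of a sign vector: `true` where the coordinate is `-1`. -/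
def bits {n : ℕ} (x : Fin n → ℤˣ) : Fin n → Bool := fun i => decide (x i = -1)

/-- The sign vector of a bit vector: `true ↦ -1`, `false ↦ 1`. -/
def sgn {n : ℕ} (b : Fin n → Bool) : Fin n → ℤˣ := fun i => if b i then -1 else 1

/-- The Boolean function `{-1,1}^n → {-1,1}` given by a tree: its value at `x` is `1` if the
leaf reached along `bits x` is positive, and `-1` otherwise. -/
def BT.toFun (n : ℕ) (t : BT n) : (Fin n → ℤˣ) → ℤˣ :=
  fun x => if 0 < BT.eval n t (bits x) then 1 else -1

/-- Indicator of a finite set. -/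
def ind {n : ℕ} (S : Finset (Fin n)) : Fin n → Bool := fun i => decide (i ∈ S)

theorem bits_sgn {n : ℕ} (b : Fin n → Bool) : bits (sgn b) = b := by
  funext i
  by_cases h : b i <;> simp [bits, sgn, h]

theorem sgn_bits {n : ℕ} (x : Fin n → ℤˣ) : sgn (bits x) = x := by
  funext i
  rcases Int.units_eq_one_or (x i) with h | h <;> simp [bits, sgn, h]

/-- The equivalence between bit vectors and sign vectors. -/
def sgnEquiv (n : ℕ) : (Fin n → Bool) ≃ (Fin n → ℤˣ) where
  toFun := sgn
  invFun := bits
  left_inv := bits_sgn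
  right_inv := sgn_bits

theorem cnt_ind {n : ℕ} (S : Finset (Fin n)) : cnt (ind S) = S.card := by
  unfold cnt ind
  congr 1
  ext i
  simp

theorem prod_eq_chi {n : ℕ} (S : Finset (Fin n)) (b : Fin n → Bool) :
    ∏ i ∈ S, (((sgn b i : ℤˣ) : ℤ) : ℚ) = ((chi (ind S) b : ℤ) : ℚ) := by
  unfold chi ind sgn
  rw [Int.cast_prod, ← Finset.prod_subset (Finset.subset_univ S)]
  · apply Finset.prod_congr rfl
    intro i hi
    by_cases h : b i <;> simp [hi, h]
  · intro i _ hi
    simp [hi]

/-- The Fourier coefficients of the function of a `±1` tree are the leaves of its transform. -/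
theorem fourierCoeff_toFun (n : ℕ) (t : BT n) (h : BT.isPM n t = true) (S : Finset (Fin n)) :
    fourierCoeff (BT.toFun n t) S = (BT.eval n (BT.wht n t) (ind S) : ℚ) / 2 ^ n := by
  unfold fourierCoeff
  congr 1
  rw [BT.eval_wht, ← (sgnEquiv n).sum_comp, Int.cast_sum]
  apply Finset.sum_congr rfl
  intro b _
  have hb : (sgnEquiv n) b = sgn b := rfl
  rw [hb, prod_eq_chi, Int.cast_mul]
  congr 1
  unfold BT.toFun
  rw [bits_sgn]
  rcases BT.eval_isPM n t h b with h1 | h1 <;> simp [h1]

theorem degree_toFun_le (n d : ℕ) (t : BT n) (h : BT.isPM n t = true)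
    (hl : BT.low n d (BT.wht n t) = true) : degree (BT.toFun n t) ≤ d := by
  unfold degree
  apply Finset.sup_le
  intro S hS
  rw [Finset.mem_filter] at hS
  by_contra hc
  rw [not_le] at hc
  apply hS.2
  rw [fourierCoeff_toFun n t h]
  have := BT.eval_low n d _ hl (ind S) (by rw [cnt_ind]; exact hc)
  simp [this]

theorem le_degree_toFun (n : ℕ) (t : BT n) (h : BT.isPM n t = true) (S : Finset (Fin n))
    (hS : BT.eval n (BT.wht n t) (ind S) ≠ 0) : S.card ≤ degree (BT.toFun n t) := by
  unfold degree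
  apply Finset.le_sup (f := Finset.card)
  rw [Finset.mem_filter]
  refine ⟨Finset.mem_univ _, ?_⟩
  rw [fourierCoeff_toFun n t h]
  have h2 : ((2 : ℚ) ^ n) ≠ 0 := by positivity
  intro h0
  rw [div_eq_zero_iff] at h0
  rcases h0 with h0 | h0
  · exact hS (by exact_mod_cast h0)
  · exact h2 h0

theorem levelOneSum_toFun (n : ℕ) (t : BT n) (h : BT.isPM n t = true) :
    levelOneSum (BT.toFun n t)
      = ((∑ i : Fin n, BT.eval n (BT.wht n t) (ind {i}) : ℤ) : ℚ) / 2 ^ n := by
  unfold levelOneSum
  rw [Int.cast_sum, Finset.sum_div]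
  apply Finset.sum_congr rfl
  intro i _
  exact fourierCoeff_toFun n t h {i}

end Vale.Agent.Lib.P047
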