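import Mathlib
import Vale.Agent.Lib.P047.Defs
import Vale.Agent.Lib.P047.Gadget

/-!
Boolean functions of degree at most four: the sum of the level-one Fourier coefficients is
at most `7/4`.

Ingredients: (1) test functions `prod_i x_i * (x_1 + ... + x_n)^j` are orthogonal to functions of
small degree; (2) sums over the cube of functions of the coordinate sum and the coordinate product
reduce to binomial sums; (3) explicit dual certificates for at most eight variables.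
-/

namespace Vale.Agent.Lib.P047

open Finset

/-! ### Characters times a coordinate -/

theorem unit_sq (u : ℤˣ) : ((u : ℤˣ) : ℤ) * ((u : ℤˣ) : ℤ) = 1 := by
  rcases Int.units_eq_one_or u with h | h <;> simp [h]

theorem char_mul_coord_mem {n : ℕ} (T : Finset (Fin n)) (i : Fin n) (hi : i ∈ T)
    (x : Fin n → ℤˣ) :
    (∏ t ∈ T, ((x t : ℤˣ) : ℤ)) * ((x i : ℤˣ) : ℤ) = ∏ t ∈ T.erase i, ((x t : ℤˣ) : ℤ) := by
  rw [← Finset.mul_prod_erase T _ hi]
  have := unit_sq (x i)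
  calc ((x i : ℤˣ) : ℤ) * (∏ t ∈ T.erase i, ((x t : ℤˣ) : ℤ)) * ((x i : ℤˣ) : ℤ)
      = (((x i : ℤˣ) : ℤ) * ((x i : ℤˣ) : ℤ)) * ∏ t ∈ T.erase i, ((x t : ℤˣ) : ℤ) := by ring
    _ = ∏ t ∈ T.erase i, ((x t : ℤˣ) : ℤ) := by rw [this, one_mul]

theorem char_mul_coord_notMem {n : ℕ} (T : Finset (Fin n)) (i : Fin n) (hi : i ∉ T)
    (x : Fin n → ℤˣ) :
    (∏ t ∈ T, ((x t : ℤˣ) : ℤ)) * ((x i : ℤˣ) : ℤ) = ∏ t ∈ insert i T, ((x t : ℤˣ) : ℤ) := by
  rw [Finset.prod_insert hi]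
  ring

/-- Orthogonality: if all Fourier coefficients of `f` above level `d` vanish, then `f` is
orthogonal to `chi_T * (x_1 + ... + x_n)^j` whenever `d + j < |T|`. -/
theorem sum_char_pow {n : ℕ} (f : (Fin n → ℤˣ) → ℤˣ) (d : ℕ)
    (hdeg : ∀ S : Finset (Fin n), d < S.card → isum f S = 0) :
    ∀ (j : ℕ) (T : Finset (Fin n)), d + j < T.card →
      ∑ x : Fin n → ℤˣ, ((f x : ℤˣ) : ℤ) * (∏ t ∈ T, ((x t : ℤˣ) : ℤ)) * (lsum x) ^ j = 0 := by
  intro j
  induction j with
  | zero =>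
    intro T hT
    have := hdeg T (by omega)
    unfold isum at this
    simpa using this
  | succ j ih =>
    intro T hT
    have step : ∀ x : Fin n → ℤˣ,
        ((f x : ℤˣ) : ℤ) * (∏ t ∈ T, ((x t : ℤˣ) : ℤ)) * (lsum x) ^ (j + 1)
          = ∑ i : Fin n, ((f x : ℤˣ) : ℤ)
              * (∏ t ∈ (if i ∈ T then T.erase i else insert i T), ((x t : ℤˣ) : ℤ))
              * (lsum x) ^ j := by
      intro x
      have e : (lsum x) ^ (j + 1) = ∑ i : Fin n, ((x i : ℤˣ) : ℤ) * (lsum x) ^ j := by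
        rw [pow_succ, ← Finset.sum_mul]
        unfold lsum
        ring
      rw [e, Finset.mul_sum]
      apply Finset.sum_congr rfl
      intro i _
      by_cases hi : i ∈ T
      · rw [if_pos hi, ← char_mul_coord_mem T i hi x]
        ring
      · rw [if_neg hi, ← char_mul_coord_notMem T i hi x]
        ring
    rw [Finset.sum_congr rfl (fun x _ => step x), Finset.sum_comm]
    apply Finset.sum_eq_zero
    intro i _
    apply ih
    by_cases hi : i ∈ T
    · rw [if_pos hi, Finset.card_erase_of_mem hi]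
      omega
    · rw [if_neg hi, Finset.card_insert_of_notMem hi]
      omega

/-! ### Sums of functions of the coordinate sum and the coordinate product -/

/-- The product of all coordinates. -/
def cprod {n : ℕ} (x : Fin n → ℤˣ) : ℤ := ∏ i, ((x i : ℤˣ) : ℤ)

theorem cprod_cons {n : ℕ} (s : ℤˣ) (y : Fin n → ℤˣ) :
    cprod (Fin.cons s y : Fin (n + 1) → ℤˣ) = (s : ℤ) * cprod y := by
  unfold cprod
  rw [Fin.prod_univ_succ]
  simp

theorem sum_layers : ∀ (n : ℕ) (Φ : ℤ → ℤ → ℤ),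
    ∑ x : Fin n → ℤˣ, Φ (lsum x) (cprod x)
      = ∑ k ∈ Finset.range (n + 1), (n.choose k : ℤ) * Φ ((n : ℤ) - 2 * (k : ℤ)) ((-1) ^ k) := by
  intro n
  induction n with
  | zero =>
    intro Φ
    simp [lsum, cprod]
  | succ n ih =>
    intro Φ
    rw [sum_cons_units]
    simp only [lsum_cons, cprod_cons, Finset.sum_add_distrib]
    have h1 := ih (fun l p => Φ (((1 : ℤˣ) : ℤ) + l) (((1 : ℤˣ) : ℤ) * p))
    have h2 := ih (fun l p => Φ (((-1 : ℤˣ) : ℤ) + l) (((-1 : ℤˣ) : ℤ) * p))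
    rw [h1, h2]
    -- right-hand side
    rw [Finset.sum_range_succ' _ (n + 1)]
    have hc : ∀ k : ℕ, (((n + 1).choose (k + 1) : ℕ) : ℤ)
        = ((n.choose k : ℕ) : ℤ) + ((n.choose (k + 1) : ℕ) : ℤ) := by
      intro k
      rw [Nat.choose_succ_succ]
      push_cast
      ring
    simp only [hc, add_mul, Finset.sum_add_distrib]
    have h3 : ∑ k ∈ Finset.range (n + 1), ((n.choose (k + 1) : ℕ) : ℤ)
          * Φ (((n + 1 : ℕ) : ℤ) - 2 * ((k + 1 : ℕ) : ℤ)) ((-1) ^ (k + 1))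
        + (((n + 1).choose 0 : ℕ) : ℤ) * Φ (((n + 1 : ℕ) : ℤ) - 2 * ((0 : ℕ) : ℤ)) ((-1) ^ 0)
        = ∑ k ∈ Finset.range (n + 1), ((n.choose k : ℕ) : ℤ)
          * Φ (((n + 1 : ℕ) : ℤ) - 2 * (k : ℤ)) ((-1) ^ k) := by
      have h4 := Finset.sum_range_succ' (fun k : ℕ => ((n.choose k : ℕ) : ℤ)
          * Φ (((n + 1 : ℕ) : ℤ) - 2 * (k : ℤ)) ((-1) ^ k)) (n + 1)
      have h5 := Finset.sum_range_succ (fun k : ℕ => ((n.choose k : ℕ) : ℤ)
          * Φ (((n + 1 : ℕ) : ℤ) - 2 * (k : ℤ)) ((-1) ^ k)) (n + 1)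
      simp only [Nat.choose_succ_self, Nat.cast_zero, zero_mul, add_zero] at h5
      rw [← h5, h4]
      simp
    rw [add_assoc, h3, add_comm]
    congr 1
    · apply Finset.sum_congr rfl
      intro k _
      congr 2
      · push_cast
        ring
      · simp [pow_succ]
    · apply Finset.sum_congr rfl
      intro k _
      congr 2
      · push_cast
        ring
      · simp

/-! ### Dual certificates -/

theorem unit_mul_le_abs (u : ℤˣ) (a : ℤ) : ((u : ℤˣ) : ℤ) * a ≤ |a| := by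
  rcases Int.units_eq_one_or u with h | h
  · simp [h, le_abs_self]
  · simp [h, neg_le_abs]

/-- Certificate bound: if `f` is orthogonal to `cprod * P(lsum)`, then `D * wsum f` is at most
the binomial sum of `|D * l - (-1)^k * P(l)|` over the layers `l = n - 2k`. -/
theorem cert_bound {n : ℕ} (f : (Fin n → ℤˣ) → ℤˣ) (D : ℤ) (P : ℤ → ℤ)
    (hP : ∑ x : Fin n → ℤˣ, ((f x : ℤˣ) : ℤ) * (cprod x * P (lsum x)) = 0) :
    D * wsum f ≤ ∑ k ∈ Finset.range (n + 1),
      (n.choose k : ℤ) * |D * ((n : ℤ) - 2 * (k : ℤ)) - (-1) ^ k * P ((n : ℤ) - 2 * (k : ℤ))| := by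
  have h1 : D * wsum f
      = ∑ x : Fin n → ℤˣ, ((f x : ℤˣ) : ℤ) * (D * lsum x - cprod x * P (lsum x)) := by
    have e : ∀ x : Fin n → ℤˣ, ((f x : ℤˣ) : ℤ) * (D * lsum x - cprod x * P (lsum x))
        = D * (((f x : ℤˣ) : ℤ) * lsum x) - ((f x : ℤˣ) : ℤ) * (cprod x * P (lsum x)) := by
      intro x; ring
    rw [Finset.sum_congr rfl (fun x _ => e x), Finset.sum_sub_distrib, hP, ← Finset.mul_sum]
    unfold wsum
    ring
  rw [h1, ← sum_layers n (fun l p => |D * l - p * P l|)]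
  apply Finset.sum_le_sum
  intro x _
  exact unit_mul_le_abs _ _

theorem orth_pow {n : ℕ} (f : (Fin n → ℤˣ) → ℤˣ)
    (hdeg : ∀ S : Finset (Fin n), 4 < S.card → isum f S = 0) (j : ℕ) (hj : 4 + j < n) :
    ∑ x : Fin n → ℤˣ, ((f x : ℤˣ) : ℤ) * (cprod x * (lsum x) ^ j) = 0 := by
  have := sum_char_pow f 4 hdeg j Finset.univ (by simpa using hj)
  simpa [cprod, mul_assoc] using this

theorem base_small (n : ℕ) (hn : n ≤ 4) (f : (Fin n → ℤˣ) → ℤˣ) : 4 * wsum f ≤ 7 * 2 ^ n := by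
  have h := cert_bound f 1 (fun _ => 0) (by simp)
  interval_cases n
  · norm_num [Finset.sum_range_succ, Nat.choose] at h ⊢
    omega
  · norm_num [Finset.sum_range_succ, Nat.choose] at h ⊢
    omega
  · norm_num [Finset.sum_range_succ, Nat.choose] at h ⊢
    omega
  · norm_num [Finset.sum_range_succ, Nat.choose] at h ⊢
    omega
  · norm_num [Finset.sum_range_succ, Nat.choose] at h ⊢
    omega

theorem base_five (f : (Fin 5 → ℤˣ) → ℤˣ)
    (hdeg : ∀ S : Finset (Fin 5), 4 < S.card → isum f S = 0) : 4 * wsum f ≤ 7 * 2 ^ 5 := by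
  have hP : ∑ x : Fin 5 → ℤˣ, ((f x : ℤˣ) : ℤ) * (cprod x * 1) = 0 := by
    have h0 := orth_pow f hdeg 0 (by norm_num)
    simpa using h0
  have h := cert_bound f 1 (fun _ => 1) hP
  norm_num [Finset.sum_range_succ, Nat.choose] at h ⊢
  omega

theorem base_six (f : (Fin 6 → ℤˣ) → ℤˣ)
    (hdeg : ∀ S : Finset (Fin 6), 4 < S.card → isum f S = 0) : 4 * wsum f ≤ 7 * 2 ^ 6 := by
  have hP : ∑ x : Fin 6 → ℤˣ, ((f x : ℤˣ) : ℤ) * (cprod x * lsum x) = 0 := by
    have h1 := orth_pow f hdeg 1 (by norm_num)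
    simpa using h1
  have h := cert_bound f 1 (fun l => l) hP
  norm_num [Finset.sum_range_succ, Nat.choose] at h ⊢
  omega

theorem base_seven (f : (Fin 7 → ℤˣ) → ℤˣ)
    (hdeg : ∀ S : Finset (Fin 7), 4 < S.card → isum f S = 0) : 4 * wsum f ≤ 7 * 2 ^ 7 := by
  have hP : ∑ x : Fin 7 → ℤˣ, ((f x : ℤˣ) : ℤ) * (cprod x * ((lsum x) ^ 2 - 7)) = 0 := by
    have e : ∀ x : Fin 7 → ℤˣ, ((f x : ℤˣ) : ℤ) * (cprod x * ((lsum x) ^ 2 - 7))
        = ((f x : ℤˣ) : ℤ) * (cprod x * (lsum x) ^ 2)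
          - 7 * (((f x : ℤˣ) : ℤ) * (cprod x * (lsum x) ^ 0)) := by
      intro x; ring
    rw [Finset.sum_congr rfl (fun x _ => e x), Finset.sum_sub_distrib, ← Finset.mul_sum,
      orth_pow f hdeg 2 (by norm_num), orth_pow f hdeg 0 (by norm_num)]
    simp
  have h := cert_bound f 6 (fun l => l ^ 2 - 7) hP
  norm_num [Finset.sum_range_succ, Nat.choose] at h ⊢
  omega

/-- For eight variables the certificate gives `30 * wsum f ≤ 13824`. -/
theorem base_eight_cert (f : (Fin 8 → ℤˣ) → ℤˣ)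
    (hdeg : ∀ S : Finset (Fin 8), 4 < S.card → isum f S = 0) : 30 * wsum f ≤ 13824 := by
  have hP : ∑ x : Fin 8 → ℤˣ, ((f x : ℤˣ) : ℤ) * (cprod x * ((lsum x) ^ 3 - 34 * lsum x)) = 0 := by
    have e : ∀ x : Fin 8 → ℤˣ, ((f x : ℤˣ) : ℤ) * (cprod x * ((lsum x) ^ 3 - 34 * lsum x))
        = ((f x : ℤˣ) : ℤ) * (cprod x * (lsum x) ^ 3)
          - 34 * (((f x : ℤˣ) : ℤ) * (cprod x * (lsum x) ^ 1)) := by
      intro x; ring
    rw [Finset.sum_congr rfl (fun x _ => e x), Finset.sum_sub_distrib, ← Finset.mul_sum,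
      orth_pow f hdeg 3 (by norm_num), orth_pow f hdeg 1 (by norm_num)]
    simp
  have h := cert_bound f 30 (fun l => l ^ 3 - 34 * l) hP
  norm_num [Finset.sum_range_succ, Nat.choose] at h ⊢
  omega

/-! ### Fourier inversion and the evaluation identity -/

theorem prod_one_add_eq {n : ℕ} (x a : Fin n → ℤˣ) :
    ∏ i, (1 + ((x i : ℤˣ) : ℤ) * ((a i : ℤˣ) : ℤ)) = if x = a then 2 ^ n else 0 := by
  by_cases h : x = a
  · subst h
    rw [if_pos rfl]
    have e : ∀ i : Fin n, (1 + ((x i : ℤˣ) : ℤ) * ((x i : ℤˣ) : ℤ)) = 2 := by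
      intro i
      rw [unit_sq]
      norm_num
    rw [Finset.prod_congr rfl (fun i _ => e i)]
    simp
  · rw [if_neg h]
    obtain ⟨i, hi⟩ := Function.ne_iff.mp h
    apply Finset.prod_eq_zero (Finset.mem_univ i)
    rcases Int.units_eq_one_or (x i) with h1 | h1 <;>
      rcases Int.units_eq_one_or (a i) with h2 | h2 <;> simp_all

theorem inversion {n : ℕ} (f : (Fin n → ℤˣ) → ℤˣ) (a : Fin n → ℤˣ) :
    ∑ S : Finset (Fin n), isum f S * ∏ i ∈ S, ((a i : ℤˣ) : ℤ) = 2 ^ n * ((f a : ℤˣ) : ℤ) := by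
  unfold isum
  simp only [Finset.sum_mul]
  rw [Finset.sum_comm]
  have e : ∀ x : Fin n → ℤˣ,
      ∑ S : Finset (Fin n), ((f x : ℤˣ) : ℤ) * (∏ i ∈ S, ((x i : ℤˣ) : ℤ))
          * ∏ i ∈ S, ((a i : ℤˣ) : ℤ)
        = ((f x : ℤˣ) : ℤ) * (if x = a then 2 ^ n else 0) := by
    intro x
    rw [← prod_one_add_eq x a, Finset.prod_one_add, Finset.powerset_univ, Finset.mul_sum]
    apply Finset.sum_congr rfl
    intro S _
    rw [Finset.prod_mul_distrib]
    ring
  rw [Finset.sum_congr rfl (fun x _ => e x)]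
  simp only [mul_ite, mul_zero, Finset.sum_ite_eq', Finset.mem_univ, if_true]
  ring

/-- The all-ones vector with coordinate `i` replaced by `-1`. -/
def pt {n : ℕ} (i : Fin n) : Fin n → ℤˣ := Function.update (fun _ => 1) i (-1)

theorem prod_pt {n : ℕ} (S : Finset (Fin n)) (i : Fin n) :
    ∏ t ∈ S, (((pt i) t : ℤˣ) : ℤ) = if i ∈ S then -1 else 1 := by
  by_cases hi : i ∈ S
  · rw [if_pos hi, ← Finset.mul_prod_erase S _ hi]
    have h1 : ∏ t ∈ S.erase i, (((pt i) t : ℤˣ) : ℤ) = 1 := by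
      apply Finset.prod_eq_one
      intro t ht
      simp [pt, Function.update_of_ne (Finset.ne_of_mem_erase ht)]
    rw [h1]
    simp [pt]
  · rw [if_neg hi]
    apply Finset.prod_eq_one
    intro t ht
    have hne : t ≠ i := fun h => hi (h ▸ ht)
    simp [pt, Function.update_of_ne hne]

theorem prod_neg_vec {n : ℕ} (S : Finset (Fin n)) (a : Fin n → ℤˣ) :
    ∏ t ∈ S, (((-a) t : ℤˣ) : ℤ) = (-1) ^ S.card * ∏ t ∈ S, ((a t : ℤˣ) : ℤ) := by
  have h : ∀ t, (((-a) t : ℤˣ) : ℤ) = - ((a t : ℤˣ) : ℤ) := by intro t; simp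
  simp only [h]
  rw [Finset.prod_neg]

theorem sum_sign_mem {n : ℕ} (S : Finset (Fin n)) :
    ∑ i : Fin n, (if i ∈ S then (-1 : ℤ) else 1) = (n : ℤ) - 2 * (S.card : ℤ) := by
  have e : ∀ i : Fin n, (if i ∈ S then (-1 : ℤ) else 1) = 1 - 2 * (if i ∈ S then (1 : ℤ) else 0) := by
    intro i
    by_cases hi : i ∈ S <;> simp [hi]
  rw [Finset.sum_congr rfl (fun i _ => e i), Finset.sum_sub_distrib, ← Finset.mul_sum]
  simp

theorem sum_eq_singleton {n : ℕ} (S : Finset (Fin n)) :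
    ∑ i : Fin n, (if S = {i} then (1 : ℤ) else 0) = if S.card = 1 then 1 else 0 := by
  by_cases h : S.card = 1
  · rw [if_pos h]
    obtain ⟨a, rfl⟩ := Finset.card_eq_one.mp h
    simp [Finset.singleton_inj]
  · rw [if_neg h]
    apply Finset.sum_eq_zero
    intro i _
    rw [if_neg]
    rintro rfl
    exact h (Finset.card_singleton i)

theorem wsum_eq_sum_isum {n : ℕ} (f : (Fin n → ℤˣ) → ℤˣ) :
    wsum f = ∑ i : Fin n, isum f {i} := by
  unfold wsum isum lsum
  rw [Finset.sum_comm]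
  apply Finset.sum_congr rfl
  intro x _
  rw [Finset.mul_sum]
  apply Finset.sum_congr rfl
  intro i _
  simp

/-- The combination of values of `f` at the points at distance at most one from the all-ones
vector and from its negative that computes the level-one sum in degree at most four. -/
def evalComb {n : ℕ} (f : (Fin n → ℤˣ) → ℤˣ) : ℤ :=
  ∑ i : Fin n, (((f (pt i) : ℤˣ) : ℤ) - ((f (-(pt i)) : ℤˣ) : ℤ))
    - ((n : ℤ) - 6) * (((f 1 : ℤˣ) : ℤ) - ((f (-1) : ℤˣ) : ℤ))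

/-- The weight attached to the Fourier coefficient at `S` by `evalComb`. -/
theorem weight_eq {n : ℕ} (S : Finset (Fin n)) :
    ∑ i : Fin n, ((∏ t ∈ S, (((pt i) t : ℤˣ) : ℤ)) - ∏ t ∈ S, (((-(pt i)) t : ℤˣ) : ℤ))
      - ((n : ℤ) - 6) * ((∏ t ∈ S, (((1 : Fin n → ℤˣ) t : ℤˣ) : ℤ))
          - ∏ t ∈ S, (((-1 : Fin n → ℤˣ) t : ℤˣ) : ℤ))
      = (1 - (-1) ^ S.card) * (6 - 2 * (S.card : ℤ)) := by
  have h1 : ∀ i : Fin n, (∏ t ∈ S, (((pt i) t : ℤˣ) : ℤ)) - ∏ t ∈ S, (((-(pt i)) t : ℤˣ) : ℤ)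
      = (1 - (-1) ^ S.card) * (if i ∈ S then (-1 : ℤ) else 1) := by
    intro i
    rw [prod_neg_vec, prod_pt]
    ring
  rw [Finset.sum_congr rfl (fun i _ => h1 i), ← Finset.mul_sum, sum_sign_mem]
  have h2 : ∏ t ∈ S, (((1 : Fin n → ℤˣ) t : ℤˣ) : ℤ) = 1 := by simp
  have h3 : ∏ t ∈ S, (((-1 : Fin n → ℤˣ) t : ℤˣ) : ℤ) = (-1) ^ S.card := by simp
  rw [h2, h3]
  ring

/-- In degree at most four: `2^n * evalComb f = 8 * wsum f`. -/
theorem evalComb_eq {n : ℕ} (f : (Fin n → ℤˣ) → ℤˣ)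
    (hdeg : ∀ S : Finset (Fin n), 4 < S.card → isum f S = 0) :
    2 ^ n * evalComb f = 8 * wsum f := by
  have h1 : 2 ^ n * evalComb f
      = ∑ S : Finset (Fin n), isum f S * ((1 - (-1) ^ S.card) * (6 - 2 * (S.card : ℤ))) := by
    unfold evalComb
    rw [mul_sub, Finset.mul_sum]
    have e1 : ∀ i : Fin n, 2 ^ n * (((f (pt i) : ℤˣ) : ℤ) - ((f (-(pt i)) : ℤˣ) : ℤ))
        = ∑ S : Finset (Fin n), isum f S * ((∏ t ∈ S, (((pt i) t : ℤˣ) : ℤ))
            - ∏ t ∈ S, (((-(pt i)) t : ℤˣ) : ℤ)) := by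
      intro i
      rw [mul_sub, ← inversion f (pt i), ← inversion f (-(pt i)), ← Finset.sum_sub_distrib]
      apply Finset.sum_congr rfl
      intro S _
      ring
    have e2 : 2 ^ n * (((n : ℤ) - 6) * (((f 1 : ℤˣ) : ℤ) - ((f (-1) : ℤˣ) : ℤ)))
        = ∑ S : Finset (Fin n), isum f S * (((n : ℤ) - 6)
            * ((∏ t ∈ S, (((1 : Fin n → ℤˣ) t : ℤˣ) : ℤ))
              - ∏ t ∈ S, (((-1 : Fin n → ℤˣ) t : ℤˣ) : ℤ))) := by
      have e3 : 2 ^ n * (((n : ℤ) - 6) * (((f 1 : ℤˣ) : ℤ) - ((f (-1) : ℤˣ) : ℤ)))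
          = ((n : ℤ) - 6) * (2 ^ n * ((f 1 : ℤˣ) : ℤ) - 2 ^ n * ((f (-1) : ℤˣ) : ℤ)) := by ring
      rw [e3, ← inversion f 1, ← inversion f (-1), ← Finset.sum_sub_distrib, Finset.mul_sum]
      apply Finset.sum_congr rfl
      intro S _
      ring
    rw [Finset.sum_congr rfl (fun i _ => e1 i), e2, Finset.sum_comm, ← Finset.sum_sub_distrib]
    apply Finset.sum_congr rfl
    intro S _
    rw [← weight_eq S, ← Finset.mul_sum, ← mul_sub]
  have h2 : ∀ S : Finset (Fin n),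
      isum f S * ((1 - (-1) ^ S.card) * (6 - 2 * (S.card : ℤ)))
        = 8 * ∑ i : Fin n, (if S = {i} then isum f S else 0) := by
    intro S
    have e4 : ∑ i : Fin n, (if S = {i} then isum f S else 0)
        = isum f S * ∑ i : Fin n, (if S = {i} then (1 : ℤ) else 0) := by
      rw [Finset.mul_sum]
      apply Finset.sum_congr rfl
      intro i _
      by_cases hi : S = {i} <;> simp [hi]
    rw [e4, sum_eq_singleton]
    by_cases hS : 4 < S.card
    · rw [hdeg S hS]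
      simp
    · have hle : S.card ≤ 4 := by omega
      (interval_cases hc : S.card <;> simp)
      ring
  rw [h1, Finset.sum_congr rfl (fun S _ => h2 S), ← Finset.mul_sum, Finset.sum_comm,
    wsum_eq_sum_isum]
  congr 1
  apply Finset.sum_congr rfl
  intro i _
  simp

theorem two_dvd_unit_sub (u v : ℤˣ) : (2 : ℤ) ∣ ((u : ℤˣ) : ℤ) - ((v : ℤˣ) : ℤ) := by
  rcases Int.units_eq_one_or u with h1 | h1 <;>
    rcases Int.units_eq_one_or v with h2 | h2 <;> simp [h1, h2]

/-- Parity: in degree at most four, `4 * wsum f` is a multiple of `2^n`. -/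
theorem four_wsum_eq {n : ℕ} (f : (Fin n → ℤˣ) → ℤˣ)
    (hdeg : ∀ S : Finset (Fin n), 4 < S.card → isum f S = 0) :
    ∃ e : ℤ, 4 * wsum f = 2 ^ n * e := by
  have h := evalComb_eq f hdeg
  have hev : (2 : ℤ) ∣ evalComb f := by
    unfold evalComb
    apply dvd_sub
    · apply Finset.dvd_sum
      intro i _
      exact two_dvd_unit_sub _ _
    · exact Dvd.dvd.mul_left (two_dvd_unit_sub _ _) _
  obtain ⟨e, he⟩ := hev
  refine ⟨e, ?_⟩
  rw [he] at h
  linarith

/-! ### Restrictions -/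

theorem sum_insertNth {n : ℕ} (i : Fin (n + 1)) (G : (Fin (n + 1) → ℤˣ) → ℤ) :
    ∑ x, G x = ∑ y : Fin n → ℤˣ, (G (Fin.insertNth i 1 y) + G (Fin.insertNth i (-1) y)) := by
  rw [← (Fin.insertNthEquiv (fun _ : Fin (n + 1) => ℤˣ) i).sum_comp, Fintype.sum_prod_type,
    sum_units, ← Finset.sum_add_distrib]
  rfl

/-- The restriction of `f` obtained by fixing coordinate `i` to `s`. -/
def restr {n : ℕ} (f : (Fin (n + 1) → ℤˣ) → ℤˣ) (i : Fin (n + 1)) (s : ℤˣ) :
    (Fin n → ℤˣ) → ℤˣ := fun y => f (Fin.insertNth i s y)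

theorem lsum_insertNth {n : ℕ} (i : Fin (n + 1)) (s : ℤˣ) (y : Fin n → ℤˣ) :
    lsum (Fin.insertNth i s y : Fin (n + 1) → ℤˣ) = (s : ℤ) + lsum y := by
  unfold lsum
  rw [Fin.sum_univ_succAbove _ i]
  simp

theorem prod_map_insertNth {n : ℕ} (i : Fin (n + 1)) (s : ℤˣ) (y : Fin n → ℤˣ)
    (S : Finset (Fin n)) :
    ∏ t ∈ S.map (Fin.succAboveEmb i), (((Fin.insertNth i s y : Fin (n + 1) → ℤˣ) t : ℤˣ) : ℤ)
      = ∏ t ∈ S, ((y t : ℤˣ) : ℤ) := by
  rw [Finset.prod_map]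
  simp

theorem notMem_map_succAbove {n : ℕ} (i : Fin (n + 1)) (S : Finset (Fin n)) :
    i ∉ S.map (Fin.succAboveEmb i) := by
  simp [Fin.succAbove_ne]

theorem isum_restr_add {n : ℕ} (f : (Fin (n + 1) → ℤˣ) → ℤˣ) (i : Fin (n + 1))
    (S : Finset (Fin n)) :
    isum f (S.map (Fin.succAboveEmb i)) = isum (restr f i 1) S + isum (restr f i (-1)) S := by
  unfold isum restr
  rw [sum_insertNth i, Finset.sum_add_distrib]
  simp only [prod_map_insertNth]

theorem isum_restr_sub {n : ℕ} (f : (Fin (n + 1) → ℤˣ) → ℤˣ) (i : Fin (n + 1))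
    (S : Finset (Fin n)) :
    isum f (insert i (S.map (Fin.succAboveEmb i)))
      = isum (restr f i 1) S - isum (restr f i (-1)) S := by
  unfold isum restr
  rw [sum_insertNth i, Finset.sum_add_distrib, sub_eq_add_neg, ← Finset.sum_neg_distrib]
  simp only [Finset.prod_insert (notMem_map_succAbove i S), prod_map_insertNth]
  congr 1 <;>
  · apply Finset.sum_congr rfl
    intro y _
    simp

theorem restr_deg {n : ℕ} (f : (Fin (n + 1) → ℤˣ) → ℤˣ) (d : ℕ)
    (hdeg : ∀ S : Finset (Fin (n + 1)), d < S.card → isum f S = 0)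
    (i : Fin (n + 1)) (s : ℤˣ) (S : Finset (Fin n)) (hS : d < S.card) :
    isum (restr f i s) S = 0 := by
  have h1 := hdeg (S.map (Fin.succAboveEmb i)) (by rw [Finset.card_map]; omega)
  have h2 := hdeg (insert i (S.map (Fin.succAboveEmb i)))
    (by rw [Finset.card_insert_of_notMem (notMem_map_succAbove i S), Finset.card_map]; omega)
  rw [isum_restr_add] at h1
  rw [isum_restr_sub] at h2
  rcases Int.units_eq_one_or s with hs | hs <;> subst hs <;> omega

theorem wsum_restr {n : ℕ} (f : (Fin (n + 1) → ℤˣ) → ℤˣ) (i : Fin (n + 1)) :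
    wsum f = wsum (restr f i 1) + wsum (restr f i (-1)) + isum f {i} := by
  unfold wsum isum restr
  rw [sum_insertNth i, sum_insertNth i, ← Finset.sum_add_distrib, ← Finset.sum_add_distrib]
  apply Finset.sum_congr rfl
  intro y _
  rw [lsum_insertNth, lsum_insertNth]
  simp
  ring

/-! ### The main bound -/

theorem exists_small_coeff {n : ℕ} (f : (Fin (n + 1) → ℤˣ) → ℤˣ) :
    ∃ i : Fin (n + 1), ((n : ℤ) + 1) * isum f {i} ≤ wsum f := by
  by_contra hc
  have hc2 : ∀ i : Fin (n + 1), wsum f < ((n : ℤ) + 1) * isum f {i} := by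
    intro i
    by_contra h
    exact hc ⟨i, by omega⟩
  have h1 : ∑ _i : Fin (n + 1), wsum f < ∑ i : Fin (n + 1), ((n : ℤ) + 1) * isum f {i} :=
    Finset.sum_lt_sum_of_nonempty Finset.univ_nonempty (fun i _ => hc2 i)
  rw [← Finset.mul_sum, ← wsum_eq_sum_isum] at h1
  simp at h1

/-- Every Boolean function of degree at most four has `4 * wsum f ≤ 7 * 2^n`, that is, the sum
of its level-one Fourier coefficients is at most `7/4`. -/
theorem four_main : ∀ (n : ℕ) (f : (Fin n → ℤˣ) → ℤˣ),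
    (∀ S : Finset (Fin n), 4 < S.card → isum f S = 0) → 4 * wsum f ≤ 7 * 2 ^ n := by
  intro n
  induction n with
  | zero =>
    intro f _
    exact base_small 0 (by norm_num) f
  | succ n ih =>
    intro f hdeg
    by_cases hn : n + 1 ≤ 7
    · have hn' : n ≤ 6 := by omega
      interval_cases n
      · exact base_small 1 (by norm_num) f
      · exact base_small 2 (by norm_num) f
      · exact base_small 3 (by norm_num) f
      · exact base_small 4 (by norm_num) f
      · exact base_five f hdeg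
      · exact base_six f hdeg
      · exact base_seven f hdeg
    · obtain ⟨e, he⟩ := four_wsum_eq f hdeg
      have hpos : (0 : ℤ) < 2 ^ (n + 1) := by positivity
      suffices hlt : 4 * wsum f < 8 * 2 ^ (n + 1) by
        have he8 : e < 8 := by
          by_contra hge
          have : (8 : ℤ) ≤ e := by omega
          nlinarith
        have he7 : e ≤ 7 := by omega
        rw [he]
        nlinarith
      by_cases h8 : n + 1 = 8
      · have hn7 : n = 7 := by omega
        subst hn7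
        have hc := base_eight_cert f hdeg
        norm_num at hc ⊢
        omega
      · have hn8 : 8 ≤ n := by omega
        obtain ⟨i, hi⟩ := exists_small_coeff f
        have hr := wsum_restr f i
        have h1 := ih (restr f i 1) (restr_deg f 4 hdeg i 1)
        have h2 := ih (restr f i (-1)) (restr_deg f 4 hdeg i (-1))
        have hp : (2 : ℤ) ^ (n + 1) = 2 * 2 ^ n := by ring
        have hpn : (0 : ℤ) < 2 ^ n := by positivity
        have hn8' : (8 : ℤ) ≤ (n : ℤ) := by exact_mod_cast hn8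
        rw [hp]
        by_contra hge
        have hge' : 16 * 2 ^ n ≤ 4 * wsum f := by omega
        -- (n+1) * wsum f <= (n+1) * (wsum r1 + wsum r2) + wsum f
        have hk : ((n : ℤ) + 1) * wsum f
            = ((n : ℤ) + 1) * (wsum (restr f i 1) + wsum (restr f i (-1)))
              + ((n : ℤ) + 1) * isum f {i} := by
          rw [hr]; ring
        have hk2 : (n : ℤ) * wsum f
            ≤ ((n : ℤ) + 1) * (wsum (restr f i 1) + wsum (restr f i (-1))) := by
          nlinarith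
        have hk3 : 4 * (wsum (restr f i 1) + wsum (restr f i (-1))) ≤ 14 * 2 ^ n := by
          linarith
        nlinarith

end Vale.Agent.Lib.P047
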