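import Mathlib
import Vale.Agent.Lib.P047.Defs
import Vale.Agent.Lib.P047.Gadget
import Vale.Agent.Lib.P047.Four

/-!
The bound of `Four` in terms of `degree`, with absolute values of the level-one coefficients
(obtained by flipping the signs of the coordinates).
-/

namespace Vale.Agent.Lib.P047

open Finset

/-- Precompose `f` with the coordinatewise multiplication by the sign vector `a`. -/
def flipBy {n : ℕ} (a : Fin n → ℤˣ) (f : (Fin n → ℤˣ) → ℤˣ) : (Fin n → ℤˣ) → ℤˣ :=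
  fun x => f (a * x)

theorem isum_flipBy {n : ℕ} (a : Fin n → ℤˣ) (f : (Fin n → ℤˣ) → ℤˣ) (S : Finset (Fin n)) :
    isum (flipBy a f) S = (∏ i ∈ S, ((a i : ℤˣ) : ℤ)) * isum f S := by
  have haa : a * a = 1 := by
    funext i
    simp [Int.units_mul_self]
  have e := Equiv.sum_comp (Equiv.mulLeft a)
    (fun y : Fin n → ℤˣ => ((f y : ℤˣ) : ℤ) * ∏ i ∈ S, (((a * y) i : ℤˣ) : ℤ))
  unfold isum flipBy
  have e1 : ∀ x : Fin n → ℤˣ,
      ((f (a * x) : ℤˣ) : ℤ) * ∏ i ∈ S, ((x i : ℤˣ) : ℤ)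
        = ((f ((Equiv.mulLeft a) x) : ℤˣ) : ℤ)
          * ∏ i ∈ S, (((a * (Equiv.mulLeft a) x) i : ℤˣ) : ℤ) := by
    intro x
    have : a * (Equiv.mulLeft a) x = x := by
      show a * (a * x) = x
      rw [← mul_assoc, haa, one_mul]
    rw [this]
    rfl
  rw [Finset.sum_congr rfl (fun x _ => e1 x), e, Finset.mul_sum]
  apply Finset.sum_congr rfl
  intro y _
  have e2 : ∏ i ∈ S, (((a * y) i : ℤˣ) : ℤ)
      = (∏ i ∈ S, ((a i : ℤˣ) : ℤ)) * ∏ i ∈ S, ((y i : ℤˣ) : ℤ) := by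
    rw [← Finset.prod_mul_distrib]
    apply Finset.prod_congr rfl
    intro i _
    simp
  rw [e2]
  ring

/-- Every Boolean function of degree at most four satisfies `sum_i |fhat({i})| ≤ 7/4`. -/
theorem four_abs {n : ℕ} (f : (Fin n → ℤˣ) → ℤˣ) (hdeg : degree f ≤ 4) :
    ∑ i : Fin n, |fourierCoeff f {i}| ≤ 7 / 4 := by
  have hz : ∀ S : Finset (Fin n), 4 < S.card → isum f S = 0 := fun S hS =>
    isum_eq_zero_of_fourierCoeff f S (fourierCoeff_eq_zero_of_degree_lt f S (by omega))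
  let a : Fin n → ℤˣ := fun i => if 0 ≤ fourierCoeff f {i} then 1 else -1
  have hg : ∀ S : Finset (Fin n), 4 < S.card → isum (flipBy a f) S = 0 := by
    intro S hS
    rw [isum_flipBy, hz S hS, mul_zero]
  have key := four_main n (flipBy a f) hg
  have hw : wsum (flipBy a f) = ∑ i : Fin n, ((a i : ℤˣ) : ℤ) * isum f {i} := by
    rw [wsum_eq_sum_isum]
    apply Finset.sum_congr rfl
    intro i _
    rw [isum_flipBy]
    simp
  have habs : ∀ i : Fin n, |fourierCoeff f {i}|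
      = ((((a i : ℤˣ) : ℤ) * isum f {i} : ℤ) : ℚ) / 2 ^ n := by
    intro i
    rw [fourierCoeff_eq_isum]
    have h2 : (0 : ℚ) < 2 ^ n := by positivity
    by_cases h : 0 ≤ ((isum f {i} : ℤ) : ℚ) / 2 ^ n
    · have ha : a i = 1 := by
        show (if 0 ≤ fourierCoeff f {i} then (1 : ℤˣ) else -1) = 1
        rw [fourierCoeff_eq_isum, if_pos h]
      rw [abs_of_nonneg h, ha]
      simp
    · have ha : a i = -1 := by
        show (if 0 ≤ fourierCoeff f {i} then (1 : ℤˣ) else -1) = -1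
        rw [fourierCoeff_eq_isum, if_neg h]
      rw [abs_of_neg (lt_of_not_ge h), ha]
      simp
      ring
  rw [Finset.sum_congr rfl (fun i _ => habs i), ← Finset.sum_div, ← Int.cast_sum, ← hw]
  have h2 : (0 : ℚ) < 2 ^ n := by positivity
  rw [div_le_iff₀ h2]
  have keyq : (4 : ℚ) * ((wsum (flipBy a f) : ℤ) : ℚ) ≤ 7 * 2 ^ n := by exact_mod_cast key
  linarith

end Vale.Agent.Lib.P047
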