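import Mathlib
import Vale.Agent.Lib.P047.Defs
import Vale.Agent.Lib.P047.Partition
import Vale.Agent.Lib.P047.Gadget

/-!
A family of Boolean functions of odd degree `d ≥ 5` whose level-one Fourier coefficients sum to
more than `B_d`: majority on `m = d - 4` bits, modified on the two middle layers by a
ten-variable function of degree at most five whose level-one sum is `17/8`.
The first part is the construction for a general inner function on `k + 1` variables.
-/

namespace Vale.Agent.Lib.P047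

open Finset

section gadgetK

variable {k : ℕ} (h : (Fin (k + 1) → ℤˣ) → ℤˣ)

/-- The construction on `{-1,1}^k × {-1,1}^m`: the sign of `x_1 + ... + x_m` when this sum has
absolute value at least `3`, and otherwise `h` applied to the sign of the sum and `y`. -/
def gadK {m : ℕ} (y : Fin k → ℤˣ) (x : Fin m → ℤˣ) : ℤˣ :=
  if 3 ≤ lsum x then 1 else if lsum x ≤ -3 then -1 else h (Fin.cons (sg (lsum x)) y)

/-- The construction as a function on `{-1,1}^(k+m)`. -/
def gadFunK (m : ℕ) : (Fin (k + m) → ℤˣ) → ℤˣ :=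
  fun z => gadK h (fun i => z (Fin.castAdd m i)) (fun j => z (Fin.natAdd k j))

theorem gadFunK_append (m : ℕ) (y : Fin k → ℤˣ) (x : Fin m → ℤˣ) :
    gadFunK h m (Fin.append y x) = gadK h y x := by
  unfold gadFunK
  simp

/-- Partial Fourier sums of `h` with the first coordinate fixed. -/
def aSumK (T : Finset (Fin k)) (s : ℤˣ) : ℤ :=
  ∑ y : Fin k → ℤˣ, ((h (Fin.cons s y) : ℤˣ) : ℤ) * ∏ i ∈ T, ((y i : ℤˣ) : ℤ)

theorem isum_map_succK (T : Finset (Fin k)) :
    isum h (T.map (Fin.succEmb k)) = aSumK h T 1 + aSumK h T (-1) := by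
  unfold isum aSumK
  rw [sum_cons_units, Finset.sum_add_distrib]
  congr 1 <;>
  · apply Finset.sum_congr rfl
    intro y _
    rw [Finset.prod_map]
    simp

theorem zero_notMem_map_succK (T : Finset (Fin k)) :
    (0 : Fin (k + 1)) ∉ T.map (Fin.succEmb k) := by
  simp [Fin.succ_ne_zero]

theorem isum_insert_zeroK (T : Finset (Fin k)) :
    isum h (insert 0 (T.map (Fin.succEmb k))) = aSumK h T 1 - aSumK h T (-1) := by
  unfold isum aSumK
  rw [sum_cons_units, Finset.sum_add_distrib, sub_eq_add_neg, ← Finset.sum_neg_distrib]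
  congr 1 <;>
  · apply Finset.sum_congr rfl
    intro y _
    rw [Finset.prod_insert (zero_notMem_map_succK T), Finset.prod_map]
    simp

theorem aSumK_zero (dh : ℕ) (hdeg : ∀ S : Finset (Fin (k + 1)), dh < S.card → isum h S = 0)
    (T : Finset (Fin k)) (hT : dh + 1 ≤ T.card) (s : ℤˣ) : aSumK h T s = 0 := by
  have h1 := hdeg (T.map (Fin.succEmb k)) (by rw [Finset.card_map]; omega)
  have h2 := hdeg (insert 0 (T.map (Fin.succEmb k)))
    (by rw [Finset.card_insert_of_notMem (zero_notMem_map_succK T), Finset.card_map]; omega)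
  rw [isum_map_succK] at h1
  rw [isum_insert_zeroK] at h2
  rcases Int.units_eq_one_or s with hs | hs <;> subst hs <;> omega

theorem aSumK_eq (dh : ℕ) (hdeg : ∀ S : Finset (Fin (k + 1)), dh < S.card → isum h S = 0)
    (T : Finset (Fin k)) (hT : T.card = dh) : aSumK h T 1 = aSumK h T (-1) := by
  have h2 := hdeg (insert 0 (T.map (Fin.succEmb k)))
    (by rw [Finset.card_insert_of_notMem (zero_notMem_map_succK T), Finset.card_map]; omega)
  rw [isum_insert_zeroK] at h2
  omega

theorem inner_sumK {m : ℕ} (T : Finset (Fin k)) (hT : T.Nonempty) (x : Fin m → ℤˣ) :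
    ∑ y : Fin k → ℤˣ, ((gadK h y x : ℤˣ) : ℤ) * ∏ i ∈ T, ((y i : ℤˣ) : ℤ)
      = if 3 ≤ lsum x ∨ lsum x ≤ -3 then 0 else aSumK h T (sg (lsum x)) := by
  unfold gadK
  by_cases h1 : 3 ≤ lsum x
  · simp [h1, sum_prod_eq_zero T hT]
  · by_cases h2 : lsum x ≤ -3
    · simp [h1, h2, sum_prod_eq_zero T hT]
    · simp [h1, h2, aSumK]

theorem isum_gadFunK_eq_zero (dh : ℕ) (hdh : 1 ≤ dh)
    (hdeg : ∀ S : Finset (Fin (k + 1)), dh < S.card → isum h S = 0)
    (m : ℕ) (hm : Odd m) (S : Finset (Fin (k + m))) (hS : m + dh < S.card + 1) :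
    isum (gadFunK h m) S = 0 := by
  have hc := card_parts S
  have hR : (rightPart S).card ≤ m := by
    have := Finset.card_le_univ (rightPart S)
    simpa using this
  have hL4 : dh ≤ (leftPart S).card := by omega
  have hLne : (leftPart S).Nonempty := by
    rw [← Finset.card_pos]; omega
  unfold isum
  rw [sum_append]
  have step : ∀ x : Fin m → ℤˣ,
      ∑ y : Fin k → ℤˣ, ((gadFunK h m (Fin.append y x) : ℤˣ) : ℤ)
          * ∏ i ∈ S, ((Fin.append y x i : ℤˣ) : ℤ)
        = (∏ j ∈ rightPart S, ((x j : ℤˣ) : ℤ))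
          * (if 3 ≤ lsum x ∨ lsum x ≤ -3 then 0 else aSumK h (leftPart S) (sg (lsum x))) := by
    intro x
    rw [← inner_sumK h (leftPart S) hLne x, Finset.mul_sum]
    apply Finset.sum_congr rfl
    intro y _
    rw [gadFunK_append, prod_append]
    ring
  rw [Finset.sum_congr rfl (fun x _ => step x)]
  by_cases h5 : dh + 1 ≤ (leftPart S).card
  · apply Finset.sum_eq_zero
    intro x _
    rw [aSumK_zero h dh hdeg _ h5]
    simp
  · have h4 : (leftPart S).card = dh := by omega
    have hRm : (rightPart S).card = m := by omega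
    have hRu : rightPart S = Finset.univ := by
      apply Finset.eq_univ_of_card
      rw [hRm]; simp
    have ha := aSumK_eq h dh hdeg _ h4
    have hsg : ∀ l : ℤ, aSumK h (leftPart S) (sg l) = aSumK h (leftPart S) 1 := by
      intro l
      unfold sg
      split
      · rfl
      · exact ha.symm
    simp only [hsg, hRu]
    have hneg : ∀ x : Fin m → ℤˣ,
        (∏ j, (((-x) j : ℤˣ) : ℤ))
            * (if 3 ≤ lsum (-x) ∨ lsum (-x) ≤ -3 then 0 else aSumK h (leftPart S) 1)
          = - ((∏ j, ((x j : ℤˣ) : ℤ))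
            * (if 3 ≤ lsum x ∨ lsum x ≤ -3 then 0 else aSumK h (leftPart S) 1)) := by
      intro x
      have hp : ∏ j, (((-x) j : ℤˣ) : ℤ) = - ∏ j, ((x j : ℤˣ) : ℤ) := by
        have hj : ∀ j, (((-x) j : ℤˣ) : ℤ) = - ((x j : ℤˣ) : ℤ) := by intro j; simp
        simp only [hj]
        rw [Finset.prod_neg]
        simp [hm.neg_one_pow]
      rw [hp, lsum_neg]
      have hcond : (3 ≤ -lsum x ∨ -lsum x ≤ -3) ↔ (3 ≤ lsum x ∨ lsum x ≤ -3) := by omega
      simp only [hcond]
      ring
    have e := sum_neg_cube (fun x : Fin m → ℤˣ => (∏ j, ((x j : ℤˣ) : ℤ))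
            * (if 3 ≤ lsum x ∨ lsum x ≤ -3 then 0 else aSumK h (leftPart S) 1))
    simp only [hneg, Finset.sum_neg_distrib] at e
    linarith

theorem degree_gadFunK_le (dh : ℕ) (hdh : 1 ≤ dh)
    (hdeg : ∀ S : Finset (Fin (k + 1)), dh < S.card → fourierCoeff h S = 0)
    (m : ℕ) (hm : Odd m) : degree (gadFunK h m) ≤ m + dh - 1 := by
  apply degree_le_of_isum
  intro S hS
  exact isum_gadFunK_eq_zero h dh hdh
    (fun T hT => isum_eq_zero_of_fourierCoeff h T (hdeg T hT)) m hm S (by omega)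

/-! ### The level-one sum of the construction -/

theorem card_cubeK : (Finset.univ : Finset (Fin k → ℤˣ)).card = 2 ^ k := by
  rw [Finset.card_univ, Fintype.card_fun, Fintype.card_units_int, Fintype.card_fin]

/-- Partial level-one sums of `h` with the first coordinate fixed. -/
def rSumK (s : ℤˣ) : ℤ :=
  ∑ y : Fin k → ℤˣ, ((h (Fin.cons s y) : ℤˣ) : ℤ) * (lsum y + (s : ℤ))

theorem wsum_eq_rSumK : wsum h = rSumK h 1 + rSumK h (-1) := by
  unfold wsum rSumK
  rw [sum_cons_units, Finset.sum_add_distrib]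
  simp only [lsum_cons]
  have e1 : ∀ y : Fin k → ℤˣ, (((1 : ℤˣ) : ℤ) + lsum y) = lsum y + ((1 : ℤˣ) : ℤ) :=
    fun y => add_comm _ _
  have e2 : ∀ y : Fin k → ℤˣ, (((-1 : ℤˣ) : ℤ) + lsum y) = lsum y + ((-1 : ℤˣ) : ℤ) :=
    fun y => add_comm _ _
  simp only [e1, e2]

/-- The inner sum over `y` of the construction times the sum of all coordinates. -/
def gSumK {m : ℕ} (x : Fin m → ℤˣ) : ℤ :=
  ∑ y : Fin k → ℤˣ, ((gadK h y x : ℤˣ) : ℤ) * (lsum y + lsum x)

theorem wsum_gadFunK (m : ℕ) : wsum (gadFunK h m) = ∑ x : Fin m → ℤˣ, gSumK h x := by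
  unfold wsum gSumK
  rw [sum_append]
  apply Finset.sum_congr rfl
  intro x _
  apply Finset.sum_congr rfl
  intro y _
  rw [gadFunK_append, lsum_append]

theorem gSumK_hi {m : ℕ} (x : Fin m → ℤˣ) (hx : 3 ≤ lsum x) :
    gSumK h x = 2 ^ k * lsum x := by
  unfold gSumK gadK
  simp only [hx, if_true, Units.val_one, one_mul]
  rw [Finset.sum_add_distrib, sum_lsum_eq_zero, Finset.sum_const, card_cubeK]
  simp

theorem gSumK_lo {m : ℕ} (x : Fin m → ℤˣ) (hx : lsum x ≤ -3) :
    gSumK h x = -(2 ^ k * lsum x) := by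
  have h1 : ¬ (3 ≤ lsum x) := by omega
  unfold gSumK gadK
  simp only [h1, hx, if_true, if_false, Units.val_neg, Units.val_one, neg_mul, one_mul]
  rw [Finset.sum_neg_distrib, Finset.sum_add_distrib, sum_lsum_eq_zero, Finset.sum_const,
    card_cubeK]
  simp

theorem gSumK_one {m : ℕ} (x : Fin m → ℤˣ) (hx : lsum x = 1) : gSumK h x = rSumK h 1 := by
  unfold gSumK gadK rSumK sg
  simp [hx]

theorem gSumK_neg_one {m : ℕ} (x : Fin m → ℤˣ) (hx : lsum x = -1) :
    gSumK h x = rSumK h (-1) := by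
  unfold gSumK gadK rSumK sg
  simp [hx]

end gadgetK

/-! ### Comparison with majority on four more bits -/

/-- `beta4 l = sum over a, b, c, d in {-1,1} of |l + a + b + c + d|`. -/
def beta4 (l : ℤ) : ℤ := |l + 4| + 4 * |l + 2| + 6 * |l| + 4 * |l - 2| + |l - 4|

theorem bsum_add_four (m : ℕ) : bsum (m + 4) = ∑ x : Fin m → ℤˣ, beta4 (lsum x) := by
  have e0 : bsum (m + 4) = bsum ((m + 1) + 3) := rfl
  rw [e0, bsum_add_three (m + 1)]
  have e1 := sum_shift (n := m) (fun l => beta l)
  rw [e1]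
  apply Finset.sum_congr rfl
  intro x _
  unfold beta beta4
  have a1 : (1 : ℤ) + lsum x + 3 = lsum x + 4 := by ring
  have a2 : (1 : ℤ) + lsum x + 1 = lsum x + 2 := by ring
  have a3 : (1 : ℤ) + lsum x - 1 = lsum x := by ring
  have a4 : (1 : ℤ) + lsum x - 3 = lsum x - 2 := by ring
  have a5 : (-1 : ℤ) + lsum x + 3 = lsum x + 2 := by ring
  have a6 : (-1 : ℤ) + lsum x + 1 = lsum x := by ring
  have a7 : (-1 : ℤ) + lsum x - 1 = lsum x - 2 := by ring
  have a8 : (-1 : ℤ) + lsum x - 3 = lsum x - 4 := by ring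
  rw [a1, a2, a3, a4, a5, a6, a7, a8]
  ring

theorem beta4_hi (l : ℤ) (hl : 4 ≤ l) : beta4 l = 16 * l := by
  unfold beta4
  rw [abs_of_nonneg (by omega), abs_of_nonneg (by omega), abs_of_nonneg (by omega),
    abs_of_nonneg (by omega), abs_of_nonneg (by omega)]
  ring

theorem beta4_lo (l : ℤ) (hl : l ≤ -4) : beta4 l = -(16 * l) := by
  unfold beta4
  rw [abs_of_nonpos (by omega), abs_of_nonpos (by omega), abs_of_nonpos (by omega),
    abs_of_nonpos (by omega), abs_of_nonpos (by omega)]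
  ring

theorem beta4_three : beta4 3 = 50 := by
  unfold beta4
  norm_num

theorem beta4_neg_three : beta4 (-3) = 50 := by
  unfold beta4
  norm_num

theorem beta4_one : beta4 1 = 30 := by
  unfold beta4
  norm_num

theorem beta4_neg_one : beta4 (-1) = 30 := by
  unfold beta4
  norm_num

/-! ### Counting sign vectors with a given coordinate sum -/

/-- The number of sign vectors of length `m` with coordinate sum `l`. -/
def lcnt (m : ℕ) (l : ℤ) : ℤ := ∑ x : Fin m → ℤˣ, if lsum x = l then 1 else 0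

theorem lcnt_nonneg (m : ℕ) (l : ℤ) : 0 ≤ lcnt m l := by
  unfold lcnt
  apply Finset.sum_nonneg
  intro x _
  split <;> norm_num

theorem lcnt_succ (m : ℕ) (l : ℤ) : lcnt (m + 1) l = lcnt m (l - 1) + lcnt m (l + 1) := by
  unfold lcnt
  rw [sum_shift (n := m) (fun t => if t = l then 1 else 0), Finset.sum_add_distrib]
  congr 1 <;>
  · apply Finset.sum_congr rfl
    intro x _
    congr 1
    apply propext
    constructor <;> intro hh <;> omega

theorem lcnt_neg (m : ℕ) (l : ℤ) : lcnt m (-l) = lcnt m l := by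
  unfold lcnt
  rw [sum_neg_cube]
  apply Finset.sum_congr rfl
  intro x _
  rw [lsum_neg]
  congr 1
  apply propext
  constructor <;> intro hh <;> omega

theorem lcnt_zero (l : ℤ) : lcnt 0 l = if l = 0 then 1 else 0 := by
  unfold lcnt lsum
  simp [eq_comm]

/-- Unimodality: moving two steps away from zero does not increase the count. -/
theorem lcnt_mono : ∀ (m : ℕ) (l : ℤ), 0 ≤ l → lcnt m (l + 2) ≤ lcnt m l := by
  intro m
  induction m with
  | zero =>
    intro l hl
    rw [lcnt_zero, lcnt_zero]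
    have h2 : ¬ (l + 2 = 0) := by omega
    rw [if_neg h2]
    split <;> norm_num
  | succ m ih =>
    intro l hl
    rw [lcnt_succ, lcnt_succ]
    have e1 : l + 2 - 1 = l + 1 := by ring
    have e2 : l + 2 + 1 = l + 1 + 2 := by ring
    rw [e1, e2]
    have h1 := ih (l + 1) (by omega)
    by_cases h0 : l = 0
    · subst h0
      have hn := lcnt_neg m 1
      have e3 : (0 : ℤ) - 1 = -1 := by ring
      rw [e3, hn]
      have e4 : (0 : ℤ) + 1 = 1 := by ring
      rw [e4] at h1 ⊢
      linarith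
    · have h2 := ih (l - 1) (by omega)
      have e5 : l - 1 + 2 = l + 1 := by ring
      rw [e5] at h2
      linarith

theorem lcnt_three_le_one (m : ℕ) : lcnt m 3 ≤ lcnt m 1 := by
  have := lcnt_mono m 1 (by norm_num)
  simpa using this

theorem lcnt_one_pos (m : ℕ) (hm : Odd m) : 1 ≤ lcnt m 1 := by
  unfold lcnt
  have hnn : ∀ x ∈ (Finset.univ : Finset (Fin m → ℤˣ)),
      (0 : ℤ) ≤ (if lsum x = 1 then 1 else 0) := by
    intro x _
    split <;> norm_num
  have hle := Finset.single_le_sum hnn (Finset.mem_univ (altv m))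
  rw [if_pos (lsum_altv m hm)] at hle
  exact hle

/-! ### The odd-degree family -/

section odd

variable (h : (Fin (9 + 1) → ℤˣ) → ℤˣ)

/-- The pointwise comparison of `gSumK x + gSumK (-x)` with `64 * beta4 (lsum x)`. -/
theorem gSumK_pair (hW : wsum h = 2176) (m : ℕ) (hm : Odd m) (x : Fin m → ℤˣ) :
    gSumK h x + gSumK h (-x) - 64 * beta4 (lsum x)
      = 256 * (if lsum x = 1 then 1 else 0) + 256 * (if lsum x = -1 then 1 else 0)
        - 128 * (if lsum x = 3 then 1 else 0) - 128 * (if lsum x = -3 then 1 else 0) := by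
  have hr := wsum_eq_rSumK h
  rw [hW] at hr
  have hn := lsum_neg x
  have hp := lsum_parity x
  obtain ⟨j, hj⟩ := hm
  have hm2 : (m : ℤ) = 2 * (j : ℤ) + 1 := by exact_mod_cast hj
  rw [hm2] at hp
  have hpow : (2 : ℤ) ^ 9 = 512 := by norm_num
  by_cases h5 : 5 ≤ lsum x
  · rw [gSumK_hi h x (by omega), gSumK_lo h (-x) (by omega), beta4_hi _ (by omega), hn, hpow]
    rw [if_neg (by omega), if_neg (by omega), if_neg (by omega), if_neg (by omega)]
    ring
  · by_cases h5' : lsum x ≤ -5
    · rw [gSumK_lo h x (by omega), gSumK_hi h (-x) (by omega), beta4_lo _ (by omega), hn, hpow]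
      rw [if_neg (by omega), if_neg (by omega), if_neg (by omega), if_neg (by omega)]
      ring
    · have hcases : lsum x = 3 ∨ lsum x = -3 ∨ lsum x = 1 ∨ lsum x = -1 := by omega
      rcases hcases with h3 | h3 | h3 | h3
      · rw [gSumK_hi h x (by omega), gSumK_lo h (-x) (by omega), hn, h3, beta4_three, hpow]
        norm_num
      · rw [gSumK_lo h x (by omega), gSumK_hi h (-x) (by omega), hn, h3, beta4_neg_three, hpow]
        norm_num
      · rw [gSumK_one h x h3, gSumK_neg_one h (-x) (by omega), h3, beta4_one]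
        norm_num
        omega
      · rw [gSumK_neg_one h x h3, gSumK_one h (-x) (by omega), h3, beta4_neg_one]
        norm_num
        omega

theorem wsum_gadFunK_gt (hW : wsum h = 2176) (m : ℕ) (hm : Odd m) :
    32 * bsum (m + 4) + 128 ≤ wsum (gadFunK h m) := by
  rw [wsum_gadFunK, bsum_add_four]
  have e := sum_neg_cube (fun x : Fin m → ℤˣ => gSumK h x)
  have hsum : ∑ x : Fin m → ℤˣ, (gSumK h x + gSumK h (-x) - 64 * beta4 (lsum x))
      = 2 * ∑ x : Fin m → ℤˣ, gSumK h x - 64 * ∑ x : Fin m → ℤˣ, beta4 (lsum x) := by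
    rw [Finset.sum_sub_distrib, Finset.sum_add_distrib, ← e, ← Finset.mul_sum]
    ring
  have hsum2 : ∑ x : Fin m → ℤˣ, (gSumK h x + gSumK h (-x) - 64 * beta4 (lsum x))
      = 256 * lcnt m 1 + 256 * lcnt m (-1) - 128 * lcnt m 3 - 128 * lcnt m (-3) := by
    rw [Finset.sum_congr rfl (fun x _ => gSumK_pair h hW m hm x)]
    unfold lcnt
    rw [Finset.sum_sub_distrib, Finset.sum_sub_distrib, Finset.sum_add_distrib,
      ← Finset.mul_sum, ← Finset.mul_sum, ← Finset.mul_sum, ← Finset.mul_sum]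
  have c1 := lcnt_neg m 1
  have c3 := lcnt_neg m 3
  have c31 := lcnt_three_le_one m
  have c1p := lcnt_one_pos m hm
  rw [hsum2, c1, c3] at hsum
  linarith

end odd

/-- Main statement on the odd-degree construction: if `h` on ten variables has degree at most
five and level-one sum `17/8`, then for odd `m` the construction has degree at most `m + 4` and
level-one sum larger than `B_(m+4)`. -/
theorem gadget_odd_main (h : (Fin (9 + 1) → ℤˣ) → ℤˣ)
    (hdeg : ∀ S : Finset (Fin (9 + 1)), 5 < S.card → fourierCoeff h S = 0)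
    (hW : levelOneSum h = 17 / 8) (m : ℕ) (hm : Odd m) :
    degree (gadFunK h m) ≤ m + 4 ∧ bMaj (m + 4) < levelOneSum (gadFunK h m) := by
  refine ⟨degree_gadFunK_le h 5 (by norm_num) hdeg m hm, ?_⟩
  have hw : wsum h = 2176 := by
    have h1 := levelOneSum_eq_wsum h
    rw [hW] at h1
    have h2 : ((wsum h : ℤ) : ℚ) = 2176 := by
      rw [eq_div_iff (by norm_num)] at h1
      linarith
    exact_mod_cast h2
  have key := wsum_gadFunK_gt h hw m hm
  rw [bMaj_eq_bsum, levelOneSum_eq_wsum]
  have keyq : (32 : ℚ) * ((bsum (m + 4) : ℤ) : ℚ) + 128 ≤ ((wsum (gadFunK h m) : ℤ) : ℚ) := by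
    exact_mod_cast key
  have e : (2 : ℚ) ^ (9 + m) = 32 * 2 ^ (m + 4) := by
    rw [pow_add, pow_add]
    ring
  rw [e, div_lt_div_iff₀ (by positivity) (by positivity)]
  have hpos : (0 : ℚ) < 2 ^ (m + 4) := by positivity
  nlinarith

end Vale.Agent.Lib.P047
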