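import Mathlib
import Vale.Agent.Lib.P047.Defs
import Vale.Agent.Lib.P047.Cube
import Vale.Agent.Lib.P047.Gadget

/-!
The certified seven-variable Boolean function of degree four with level-one sum `7/4`,
in the form needed by the construction of `Gadget`.
-/

namespace Vale.Agent.Lib.P047

/-- The seven-variable function given by an explicit truth table. -/
def seven : (Fin 7 → ℤˣ) → ℤˣ :=
  BT.toFun 7 (BT.ofNat 25965529906256930404992042405943294 7 0)

theorem seven_isPM : BT.isPM 7 (BT.ofNat 25965529906256930404992042405943294 7 0) = true := by
  decide +kernel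

theorem seven_degree_le : degree seven ≤ 4 :=
  degree_toFun_le 7 4 _ seven_isPM (by decide +kernel)

theorem seven_degree_eq : degree seven = 4 := by
  apply le_antisymm seven_degree_le
  exact le_degree_toFun 7 _ seven_isPM ({2, 3, 4, 6} : Finset (Fin 7)) (by decide +kernel)

theorem seven_levelOneSum : levelOneSum seven = 7 / 4 := by
  unfold seven
  rw [levelOneSum_toFun 7 _ seven_isPM]
  have hs : (∑ i : Fin 7, BT.eval 7
      (BT.wht 7 (BT.ofNat 25965529906256930404992042405943294 7 0)) (ind {i})) = 224 := by
    decide +kernel
  rw [hs]
  norm_num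

/-- For every odd `m` there is a Boolean function on `6 + m` variables of degree at most
`m + 3` whose level-one sum exceeds `B_(m+3)`. -/
theorem exists_beats_majority (m : ℕ) (hm : Odd m) :
    degree (gadFun seven m) ≤ m + 3 ∧ bMaj (m + 3) < levelOneSum (gadFun seven m) :=
  gadget_main seven
    (fun S hS => fourierCoeff_eq_zero_of_degree_lt seven S
      (lt_of_le_of_lt seven_degree_le hS))
    seven_levelOneSum m hm

end Vale.Agent.Lib.P047
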