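import Mathlib
import Vale.Agent.Lib.P047.Defs
import Vale.Agent.Lib.P047.Cube

/-!
A certified ten-variable Boolean function of degree five with level-one sum `17/8`, and a
certified twelve-variable Boolean function of degree seven with level-one sum `39/16`,
both given by explicit truth tables.
-/

namespace Vale.Agent.Lib.P047

/-- Truth table (as a bit string) of the ten-variable function. -/
def tenT : ℕ := 1227947782354091648893367187412574901894058393857464572222710293711154640108954294119922044830300188000166854358378325189547119932113078669081865261608827434456270463835575956084786521396121688183793442499286422151672347951809223829364800150095423848671996957686263654920933843946272058245119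

/-- The ten-variable function given by the truth table `tenT`. -/
def ten : (Fin 10 → ℤˣ) → ℤˣ := BT.toFun 10 (BT.ofNat tenT 10 0)

theorem ten_isPM : BT.isPM 10 (BT.ofNat tenT 10 0) = true := by
  decide +kernel

theorem ten_degree_le : degree ten ≤ 5 :=
  degree_toFun_le 10 5 _ ten_isPM (by decide +kernel)

theorem ten_degree_eq : degree ten = 5 := by
  apply le_antisymm ten_degree_le
  exact le_degree_toFun 10 _ ten_isPM ({4, 5, 6, 8, 9} : Finset (Fin 10)) (by decide +kernel)

theorem ten_levelOneSum : levelOneSum ten = 17 / 8 := by
  unfold ten
  rw [levelOneSum_toFun 10 _ ten_isPM]
  have hs : (∑ i : Fin 10, BT.eval 10 (BT.wht 10 (BT.ofNat tenT 10 0)) (ind {i})) = 2176 := by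
    decide +kernel
  rw [hs]
  norm_num

/-- Truth table (as a bit string) of the twelve-variable function. -/
def twelveT : ℕ := 522194440949741989000094876594023216938236586703231286873388087141846624139321747166276154121440556969788053817683436398296902555570887122909501154456336026069891230730645569076722142720544173474223548332586902646077953159153239856485901099898532621152027049562880050125301722185098782550855137394037059079445076573768850306999315029437962406537608379004964341877851206971690894549617669479233268978717000228414137507571594612582421419180632692159349393002311444449780482939617547964523530957231715745955319357203485514140042528306738426850246848295617562504051897095810198148375512582104970787652610488942826191268128598924445678421979860174280658313640806158778607097473036761321600799394607643646932531602568212851529927974059796547108354740920514461702770552287909714170756246145760409475822000499790632207969722585606472507815508385496089616408259797307333609632581882079451672104476159601197411080182108179485931267669811712519565583243784678709025967167937747814419643488718849744044305038623329422770554987195453246124605937621937355987731092023600617454198449682219220234915257743648073372416031957725890379707604940834431380677784883856753188278468065597942022904150012972114534227704538561017817115852450946265486779744254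

/-- The twelve-variable function given by the truth table `twelveT`. -/
def twelve : (Fin 12 → ℤˣ) → ℤˣ := BT.toFun 12 (BT.ofNat twelveT 12 0)

theorem twelve_isPM : BT.isPM 12 (BT.ofNat twelveT 12 0) = true := by
  decide +kernel

theorem twelve_degree_le : degree twelve ≤ 7 :=
  degree_toFun_le 12 7 _ twelve_isPM (by decide +kernel)

theorem twelve_degree_eq : degree twelve = 7 := by
  apply le_antisymm twelve_degree_le
  exact le_degree_toFun 12 _ twelve_isPM ({5, 6, 7, 8, 9, 10, 11} : Finset (Fin 12)) (by decide +kernel)

theorem twelve_levelOneSum : levelOneSum twelve = 39 / 16 := by
  unfold twelve
  rw [levelOneSum_toFun 12 _ twelve_isPM]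
  have hs : (∑ i : Fin 12, BT.eval 12 (BT.wht 12 (BT.ofNat twelveT 12 0)) (ind {i})) = 9984 := by
    decide +kernel
  rw [hs]
  norm_num

end Vale.Agent.Lib.P047
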